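import Mathlib

/-!
Definitions for the one-dimensional Lieb-Thirring inequality at `γ = 1`.
-/

open MeasureTheory

namespace Vale.Agent.P371

/-- `ψ ∈ H¹(ℝ)` with derivative `ψd`: both square integrable and `ψ` is a primitive of `ψd`. -/
def IsH1 (ψ ψd : ℝ → ℂ) : Prop :=
  MemLp ψ 2 volume ∧ MemLp ψd 2 volume ∧ ∀ a b : ℝ, ψ b - ψ a = ∫ t in a..b, ψd t

/-- A scalar potential for `γ = 1`: nonnegative, measurable, `∫ W^(3/2)` finite. -/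
def IsPotential (W : ℝ → ℝ) : Prop :=
  Measurable W ∧ (∀ x, 0 ≤ W x) ∧ Integrable (fun x => W x ^ (3 / 2 : ℝ)) volume

/-- An `L²`-orthonormal family. -/
def IsONFamily {N : ℕ} (ψ : Fin N → ℝ → ℂ) : Prop :=
  ∀ i j, ∫ x, ψ i x * (starRingEnd ℂ) (ψ j x) = if i = j then 1 else 0

/-- All quotients `-Σ_j ⟨ψ_j, H_W ψ_j⟩ / ∫ W^(3/2)` over orthonormal families in the form domain of
`H_W = -d²/dx² - W`. By min-max their supremum is `L_1(1)`. -/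
def LTRatios : Set ℝ :=
  {r | ∃ (N : ℕ) (ψ ψd : Fin N → ℝ → ℂ) (W : ℝ → ℝ), IsPotential W ∧
    0 < ∫ x, W x ^ (3 / 2 : ℝ) ∧ (∀ i, IsH1 (ψ i) (ψd i)) ∧ IsONFamily ψ ∧
    r = (∑ i, ((∫ x, W x * Complex.normSq (ψ i x)) - ∫ x, Complex.normSq (ψd i x))) /
      ∫ x, W x ^ (3 / 2 : ℝ)}

end Vale.Agent.P371
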