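import Mathlib

/-!
The kernel `π cot(π σ/2)`, its divided differences and the pointwise inequality.
-/

open Set Real
open scoped BigOperators

namespace Vale.Agent.P371

/-- `kc σ = π cot (π σ / 2)`. -/
noncomputable def kc (σ : ℝ) : ℝ := π * cos (π * σ / 2) / sin (π * σ / 2)

/-- derivative of `kc`. -/
noncomputable def kcd (σ : ℝ) : ℝ := -(π ^ 2 / 2) / sin (π * σ / 2) ^ 2

/-- `sin δ / δ`, equal to `1` at `0`. -/
noncomputable def sinc' (δ : ℝ) : ℝ := if δ = 0 then 1 else sin δ / δ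

/-- divided difference of `kc`. -/
noncomputable def dk (a b : ℝ) : ℝ :=
  -(π ^ 2 / 2) * sinc' (π * a / 2 - π * b / 2) / (sin (π * a / 2) * sin (π * b / 2))

lemma sin_half_pos {σ : ℝ} (h0 : 0 < σ) (h2 : σ < 2) : 0 < sin (π * σ / 2) := by
  have := pi_pos
  exact sin_pos_of_pos_of_lt_pi (by positivity) (by nlinarith)

lemma hasDerivAt_kc {σ : ℝ} (h0 : 0 < σ) (h2 : σ < 2) : HasDerivAt kc (kcd σ) σ := by
  have hs := (sin_half_pos h0 h2).ne'
  have h1 : HasDerivAt (fun t => π * t / 2) (π / 2) σ := by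
    simpa using ((hasDerivAt_id σ).const_mul π).div_const 2
  refine ((h1.cos.const_mul π).fun_div h1.sin hs).congr_deriv ?_
  rw [kcd]
  field_simp
  linear_combination (-1 : ℝ) * (sin_sq_add_cos_sq (π * σ / 2))

lemma kc_sub {a b : ℝ} (ha : sin (π * a / 2) ≠ 0) (hb : sin (π * b / 2) ≠ 0) (hab : a ≠ b) :
    dk a b * (a - b) = kc a - kc b := by
  have hne : π * a / 2 - π * b / 2 ≠ 0 := by
    intro h
    apply hab
    have : π * (a - b) = 0 := by linarith
    linarith [(mul_eq_zero.1 this).resolve_left pi_ne_zero]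
  have hd : a - b ≠ 0 := sub_ne_zero.2 hab
  rw [dk, sinc', if_neg hne, kc, kc, sin_sub]
  have := pi_ne_zero
  field_simp
  ring

/-- the elementary inequality behind everything -/
lemma cos_le_sinc' {δ : ℝ} (h : |δ| ≤ π) : cos δ ≤ sinc' δ := by
  rcases eq_or_ne δ 0 with rfl | h0
  · simp [sinc']
  rw [sinc', if_neg h0]
  have key : ∀ x : ℝ, 0 < x → x ≤ π → cos x ≤ sin x / x := by
    intro x hx hxp
    rw [le_div_iff₀ hx]
    have hm : MonotoneOn (fun t => sin t - cos t * t) (Icc 0 π) := by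
      refine monotoneOn_of_deriv_nonneg (convex_Icc 0 π) (by fun_prop) (by fun_prop) fun t ht => ?_
      rw [interior_Icc] at ht
      have hd : HasDerivAt (fun t => sin t - cos t * t) (cos t - (-sin t * t + cos t * 1)) t :=
        (hasDerivAt_sin t).sub ((hasDerivAt_cos t).mul (hasDerivAt_id t))
      rw [hd.deriv]
      nlinarith [sin_pos_of_pos_of_lt_pi ht.1 ht.2, ht.1]
    have := hm (left_mem_Icc.2 pi_pos.le) ⟨hx.le, hxp⟩ hx.le
    simp only [sin_zero, mul_zero, sub_zero] at this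
    linarith
  rcases lt_or_gt_of_ne h0 with h1 | h1
  · have := key (-δ) (by linarith) (by linarith [(abs_le.1 h).1])
    simpa [neg_div_neg_eq] using this
  · exact key δ h1 (le_of_abs_le h)

/-- The inequality for the exact kernel, triple by triple. -/
lemma triple_le {l : ℝ} {m : ℝ} {n : ℝ} (hl : l ∈ Ioo (0 : ℝ) 1) (hm : m ∈ Ioo (0 : ℝ) 1)
    (hn : n ∈ Ioo (0 : ℝ) 1) :
    2 * dk (l + n) (m + n) + kc (l + n) * kc (m + n) + π ^ 2 ≤ 0 := by
  have h1 := sin_half_pos (σ := l + n) (by linarith [hl.1, hn.1]) (by linarith [hl.2, hn.2])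
  have h2 := sin_half_pos (σ := m + n) (by linarith [hm.1, hn.1]) (by linarith [hm.2, hn.2])
  have e : π * (l + n) / 2 - π * (m + n) / 2 = π * (l - m) / 2 := by ring
  have hb : |π * (l - m) / 2| ≤ π := by
    rw [abs_le]
    have := pi_pos
    constructor <;> nlinarith [hl.1, hl.2, hm.1, hm.2]
  have hc := cos_le_sinc' hb
  have hcos : cos (π * (l - m) / 2) = cos (π * (l + n) / 2) * cos (π * (m + n) / 2) +
      sin (π * (l + n) / 2) * sin (π * (m + n) / 2) := by
    rw [← cos_sub, e]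
  have : 2 * dk (l + n) (m + n) + kc (l + n) * kc (m + n) + π ^ 2 =
      -(π ^ 2) * (sinc' (π * (l - m) / 2) - cos (π * (l - m) / 2)) /
        (sin (π * (l + n) / 2) * sin (π * (m + n) / 2)) := by
    rw [dk, e, hcos, kc, kc]
    field_simp
    ring
  rw [this]
  apply div_nonpos_of_nonpos_of_nonneg _ (mul_pos h1 h2).le
  nlinarith [pi_pos, mul_nonneg (sq_nonneg π) (sub_nonneg.2 hc)]

/-- `Σ_{r<n} a^r b^(n-1-r)`. -/
def geo (n : ℕ) (a b : ℝ) : ℝ := match n with
  | 0 => 0
  | m + 1 => a * geo m a b + b ^ m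

lemma geo_mul (n : ℕ) (a b : ℝ) : geo n a b * (a - b) = a ^ n - b ^ n := by
  induction n with
  | zero => simp [geo]
  | succ m ih => simp only [geo, pow_succ]; linear_combination a * ih

lemma geo_self (n : ℕ) (a : ℝ) : geo n a a * a = n * a ^ n := by
  induction n with
  | zero => simp [geo]
  | succ m ih => simp only [geo, pow_succ]; push_cast; linear_combination a * ih

/-- value, divided difference and derivative of the polynomial with coefficients `q`. -/
def qv (d : ℕ) (q : ℕ → ℝ) (a : ℝ) : ℝ := ∑ n ∈ Finset.range d, q n * a ^ n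

/-- divided difference of `qv`. -/
def qdd (d : ℕ) (q : ℕ → ℝ) (a b : ℝ) : ℝ := ∑ n ∈ Finset.range d, q n * geo n a b

lemma qdd_mul (d : ℕ) (q : ℕ → ℝ) (a b : ℝ) : qdd d q a b * (a - b) = qv d q a - qv d q b := by
  simp only [qdd, qv, Finset.sum_mul, ← Finset.sum_sub_distrib, ← mul_sub, mul_assoc, geo_mul]

lemma geo_diag (n : ℕ) (a : ℝ) : (n : ℝ) * a ^ (n - 1) = geo n a a := by
  induction n with
  | zero => simp [geo]
  | succ m ih =>
    simp only [geo, ← ih]
    rcases m with _ | k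
    · simp
    · simp only [Nat.add_sub_cancel, pow_succ]
      push_cast
      ring

lemma hasDerivAt_qv (d : ℕ) (q : ℕ → ℝ) (a : ℝ) : HasDerivAt (qv d q) (qdd d q a a) a := by
  refine (HasDerivAt.fun_sum fun n _ => (hasDerivAt_pow n a).const_mul (q n)).congr_deriv ?_
  refine Finset.sum_congr rfl fun n _ => ?_
  congr 1
  exact geo_diag n a

lemma continuousOn_kcd {r : ℝ} (hr : 0 < r) : ContinuousOn kcd (Icc r (2 - r)) := by
  refine ContinuousOn.div continuousOn_const (by fun_prop) fun x hx => ?_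
  exact pow_ne_zero _ (sin_half_pos (lt_of_lt_of_le hr hx.1) (by linarith [hx.2])).ne'

lemma continuousOn_kc {r : ℝ} (hr : 0 < r) : ContinuousOn kc (Icc r (2 - r)) := fun _ hx =>
  (hasDerivAt_kc (lt_of_lt_of_le hr hx.1) (by linarith [hx.2])).continuousAt.continuousWithinAt

/-- A polynomial close to `kc` in `C¹` on `[r, 2-r]`. -/
lemma exists_poly {r : ℝ} (hr : 0 < r) (hr1 : r ≤ 1) {η : ℝ} (hη : 0 < η) :
    ∃ (d : ℕ) (q : ℕ → ℝ), ∀ a ∈ Icc r (2 - r), ∀ b ∈ Icc r (2 - r),
      |qv d q a - kc a| ≤ η ∧ |qdd d q a b - dk a b| ≤ η := by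
  classical
  obtain ⟨p, hp⟩ := exists_polynomial_near_of_continuousOn r (2 - r) kcd (continuousOn_kcd hr)
    (η / 2) (half_pos hη)
  -- antiderivative through 1
  let P0 : Polynomial ℝ := p.sum fun n c => Polynomial.monomial (n + 1) (c / (n + 1))
  have hP0 : P0.derivative = p := by
    simp only [P0, Polynomial.sum_def, Polynomial.derivative_sum, Polynomial.derivative_monomial]
    conv_rhs => rw [← Polynomial.sum_monomial_eq p, Polynomial.sum_def]
    refine Finset.sum_congr rfl fun n _ => ?_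
    simp only [Nat.add_sub_cancel]
    congr 1
    push_cast
    field_simp
  let Pp : Polynomial ℝ := P0 + Polynomial.C (kc 1 - P0.eval 1)
  have hPp : Pp.derivative = p := by simp [Pp, hP0]
  refine ⟨Pp.natDegree + 1, Pp.coeff, fun a ha b hb => ?_⟩
  have hqv : qv (Pp.natDegree + 1) Pp.coeff = fun x => Pp.eval x := by
    funext x; rw [Polynomial.eval_eq_sum_range]; rfl
  have hd : ∀ x ∈ Icc r (2 - r), HasDerivAt (fun t => qv (Pp.natDegree + 1) Pp.coeff t - kc t)
      (p.eval x - kcd x) x := fun x hx => by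
    rw [hqv]
    exact (hPp ▸ Pp.hasDerivAt x).sub
      (hasDerivAt_kc (lt_of_lt_of_le hr hx.1) (by linarith [hx.2]))
  have hlip : ∀ x ∈ Icc r (2 - r), ∀ y ∈ Icc r (2 - r),
      |(qv (Pp.natDegree + 1) Pp.coeff y - kc y) - (qv (Pp.natDegree + 1) Pp.coeff x - kc x)|
        ≤ η / 2 * |y - x| := fun x hx y hy =>
    Convex.norm_image_sub_le_of_norm_hasDerivWithin_le (fun t ht => (hd t ht).hasDerivWithinAt)
      (fun t ht => (hp t ht).le) (convex_Icc _ _) hx hy
  refine ⟨?_, ?_⟩
  · have h1 : (1 : ℝ) ∈ Icc r (2 - r) := ⟨hr1, by linarith⟩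
    have := hlip 1 h1 a ha
    have e1 : qv (Pp.natDegree + 1) Pp.coeff 1 - kc 1 = 0 := by rw [hqv]; simp [Pp]
    rw [e1, sub_zero] at this
    have hab : |a - 1| ≤ 2 := by rw [abs_le]; constructor <;> linarith [ha.1, ha.2]
    nlinarith
  · rcases eq_or_ne a b with rfl | hne
    · have e : qdd (Pp.natDegree + 1) Pp.coeff a a = p.eval a := by
        have h1 := hasDerivAt_qv (Pp.natDegree + 1) Pp.coeff a
        rw [hqv] at h1
        exact h1.unique (hPp ▸ Pp.hasDerivAt a)
      have e2 : dk a a = kcd a := by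
        simp only [dk, sinc', sub_self, ↓reduceIte, kcd, mul_one]
        ring
      rw [e, e2]
      linarith [hp a ha]
    · have sa := (sin_half_pos (lt_of_lt_of_le hr ha.1) (by linarith [ha.2])).ne'
      have sb := (sin_half_pos (lt_of_lt_of_le hr hb.1) (by linarith [hb.2])).ne'
      have hpos : 0 < |a - b| := abs_pos.2 (sub_ne_zero.2 hne)
      refine le_of_mul_le_mul_right ?_ hpos
      rw [← abs_mul, sub_mul, qdd_mul, kc_sub sa sb hne]
      have := hlip b hb a ha
      calc |qv (Pp.natDegree + 1) Pp.coeff a - qv (Pp.natDegree + 1) Pp.coeff b - (kc a - kc b)|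
          = |(qv (Pp.natDegree + 1) Pp.coeff a - kc a) - (qv (Pp.natDegree + 1) Pp.coeff b - kc b)| := by
            congr 1; ring
        _ ≤ η / 2 * |a - b| := this
        _ ≤ η * |a - b| := by nlinarith

end Vale.Agent.P371
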