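import Mathlib
import Vale.Agent.P371.Kernel

/-!
The calibration `Φ` and its pointwise differential inequality.
-/

open Set Filter Topology Matrix
open scoped BigOperators ComplexConjugate

namespace Vale.Agent.P371

variable {N : ℕ}

/-- `ψ ψ*`. -/
def outer (a b : Fin N → ℂ) : Matrix (Fin N) (Fin N) ℂ := Matrix.of fun i j => a i * conj (b j)

/-- iterates of `X ↦ G X + X G` applied to `P`. -/
def itV (G P : Matrix (Fin N) (Fin N) ℂ) : ℕ → Matrix (Fin N) (Fin N) ℂ
  | 0 => P
  | n + 1 => G * itV G P n + itV G P n * G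

/-- derivative of `itV` when `G' = R`, `P' = Q`. -/
def itD (G P R Q : Matrix (Fin N) (Fin N) ℂ) : ℕ → Matrix (Fin N) (Fin N) ℂ
  | 0 => Q
  | n + 1 => R * itV G P n + itV G P n * R + (G * itD G P R Q n + itD G P R Q n * G)

/-- sesquilinear form. -/
def form (a : Fin N → ℂ) (A : Matrix (Fin N) (Fin N) ℂ) (b : Fin N → ℂ) : ℂ :=
  ∑ i, ∑ j, conj (a i) * A i j * b j

/-- the calibration. -/
noncomputable def calib (d : ℕ) (q : ℕ → ℝ) (G : Matrix (Fin N) (Fin N) ℂ) (a : Fin N → ℂ) : ℝ :=
  ∑ n ∈ Finset.range d, q n * (form a (itV G (outer a a) n) a).re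

/-- its derivative along `G' = ψψ*`, `ψ' = χ`. -/
noncomputable def calibD (d : ℕ) (q : ℕ → ℝ) (G : Matrix (Fin N) (Fin N) ℂ) (a c : Fin N → ℂ) : ℝ :=
  ∑ n ∈ Finset.range d, q n * (form c (itV G (outer a a) n) a +
    form a (itD G (outer a a) (outer a a) (outer c a + outer a c) n) a +
    form a (itV G (outer a a) n) c).re

lemma hasDerivAt_itV {G P : ℝ → Matrix (Fin N) (Fin N) ℂ} {R Q : Matrix (Fin N) (Fin N) ℂ} {x : ℝ}
    (hG : ∀ i j, HasDerivAt (fun t => G t i j) (R i j) x)
    (hP : ∀ i j, HasDerivAt (fun t => P t i j) (Q i j) x) :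
    ∀ n i j, HasDerivAt (fun t => itV (G t) (P t) n i j) (itD (G x) (P x) R Q n i j) x := by
  intro n
  induction n with
  | zero => exact hP
  | succ m ih =>
    intro i j
    simp only [itV, itD, Matrix.add_apply, Matrix.mul_apply]
    refine ((HasDerivAt.fun_sum fun k _ => (hG i k).fun_mul (ih k j)).fun_add
      (HasDerivAt.fun_sum fun k _ => (ih i k).fun_mul (hG k j))).congr_deriv ?_
    simp only [Finset.sum_add_distrib]
    ring

lemma hasDerivAt_conj {f : ℝ → ℂ} {f' : ℂ} {x : ℝ} (h : HasDerivAt f f' x) :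
    HasDerivAt (fun t => conj (f t)) (conj f') x := h.star

lemma hasDerivAt_calib (d : ℕ) (q : ℕ → ℝ) {G : ℝ → Matrix (Fin N) (Fin N) ℂ}
    {a : ℝ → Fin N → ℂ} {c : Fin N → ℂ} {x : ℝ}
    (hG : ∀ i j, HasDerivAt (fun t => G t i j) (outer (a x) (a x) i j) x)
    (ha : ∀ i, HasDerivAt (fun t => a t i) (c i) x) :
    HasDerivAt (fun t => calib d q (G t) (a t)) (calibD d q (G x) (a x) c) x := by
  refine HasDerivAt.fun_sum fun n _ => HasDerivAt.const_mul (q n) ?_
  have hP : ∀ i j, HasDerivAt (fun t => outer (a t) (a t) i j)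
      ((outer c (a x) + outer (a x) c) i j) x := fun i j =>
    (ha i).fun_mul (hasDerivAt_conj (ha j))
  have hV := hasDerivAt_itV hG hP n
  have h : HasDerivAt (fun t => form (a t) (itV (G t) (outer (a t) (a t)) n) (a t))
      (form c (itV (G x) (outer (a x) (a x)) n) (a x) +
        form (a x) (itD (G x) (outer (a x) (a x)) (outer (a x) (a x))
          (outer c (a x) + outer (a x) c) n) (a x) +
        form (a x) (itV (G x) (outer (a x) (a x)) n) c) x := by
    refine (HasDerivAt.fun_sum fun i _ => HasDerivAt.fun_sum fun j _ =>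
      ((hasDerivAt_conj (ha i)).fun_mul (hV i j)).fun_mul (ha j)).congr_deriv ?_
    simp only [form, ← Finset.sum_add_distrib]
    exact Finset.sum_congr rfl fun i _ => Finset.sum_congr rfl fun j _ => by ring
  exact Complex.reCLM.hasFDerivAt.comp_hasDerivAt x h

section basisChange

variable (U : Matrix (Fin N) (Fin N) ℂ)

/-- change of basis of a vector. -/
def toBasis (a : Fin N → ℂ) : Fin N → ℂ := star U *ᵥ a

/-- change of basis of a matrix. -/
def toBasisM (A : Matrix (Fin N) (Fin N) ℂ) : Matrix (Fin N) (Fin N) ℂ := star U * A * U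

variable {U}

lemma form_eq_dot (a b : Fin N → ℂ) (A : Matrix (Fin N) (Fin N) ℂ) :
    form a A b = star a ⬝ᵥ (A *ᵥ b) := by
  simp only [form, dotProduct, Matrix.mulVec, Pi.star_apply, Finset.mul_sum, mul_assoc]
  rfl

lemma form_toBasis (hU : U * star U = 1) (a b : Fin N → ℂ) (A : Matrix (Fin N) (Fin N) ℂ) :
    form (toBasis U a) (toBasisM U A) (toBasis U b) = form a A b := by
  rw [form_eq_dot, form_eq_dot, toBasis, toBasis, toBasisM, Matrix.star_mulVec,
    Matrix.star_eq_conjTranspose, Matrix.conjTranspose_conjTranspose, ← Matrix.dotProduct_mulVec,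
    Matrix.mulVec_mulVec, Matrix.mulVec_mulVec]
  congr 2
  rw [← Matrix.star_eq_conjTranspose, show U * (star U * A * U) * star U =
    (U * star U) * A * (U * star U) by simp only [Matrix.mul_assoc], hU, one_mul, mul_one]

lemma toBasisM_mul (hU : U * star U = 1) (A B : Matrix (Fin N) (Fin N) ℂ) :
    toBasisM U (A * B) = toBasisM U A * toBasisM U B := by
  simp only [toBasisM]
  rw [show star U * A * U * (star U * B * U) = star U * A * (U * star U) * B * U by
    simp only [Matrix.mul_assoc], hU, mul_one]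
  simp only [Matrix.mul_assoc]

lemma toBasisM_add (A B : Matrix (Fin N) (Fin N) ℂ) :
    toBasisM U (A + B) = toBasisM U A + toBasisM U B := by
  simp only [toBasisM, mul_add, add_mul]

lemma toBasisM_outer (a b : Fin N → ℂ) :
    toBasisM U (outer a b) = outer (toBasis U a) (toBasis U b) := by
  have h : ∀ (a b : Fin N → ℂ), outer a b = Matrix.vecMulVec a (star b) := fun _ _ => rfl
  rw [h, h, toBasisM, toBasis, toBasis, Matrix.mul_vecMulVec, Matrix.vecMulVec_mul,
    Matrix.star_mulVec, Matrix.star_eq_conjTranspose, Matrix.conjTranspose_conjTranspose]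

lemma toBasisM_itV (hU : U * star U = 1) (G P : Matrix (Fin N) (Fin N) ℂ) (n : ℕ) :
    toBasisM U (itV G P n) = itV (toBasisM U G) (toBasisM U P) n := by
  induction n with
  | zero => rfl
  | succ m ih => simp only [itV, toBasisM_add, toBasisM_mul hU, ih]

lemma toBasisM_itD (hU : U * star U = 1) (G P R Q : Matrix (Fin N) (Fin N) ℂ) (n : ℕ) :
    toBasisM U (itD G P R Q n) =
      itD (toBasisM U G) (toBasisM U P) (toBasisM U R) (toBasisM U Q) n := by
  induction n with
  | zero => rfl
  | succ m ih => simp only [itD, toBasisM_add, toBasisM_mul hU, toBasisM_itV hU, ih]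

lemma normSq_toBasis (hU : U * star U = 1) (a : Fin N → ℂ) :
    ∑ i, Complex.normSq (toBasis U a i) = ∑ i, Complex.normSq (a i) := by
  have h : star (toBasis U a) ⬝ᵥ toBasis U a = star a ⬝ᵥ a := by
    rw [toBasis, Matrix.star_mulVec, Matrix.star_eq_conjTranspose,
      Matrix.conjTranspose_conjTranspose, ← Matrix.dotProduct_mulVec, Matrix.mulVec_mulVec,
      ← Matrix.star_eq_conjTranspose, hU, Matrix.one_mulVec]
  have e : ∀ b : Fin N → ℂ, star b ⬝ᵥ b = ((∑ i, Complex.normSq (b i) : ℝ) : ℂ) := fun b => by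
    simp only [dotProduct, Pi.star_apply, Complex.ofReal_sum, Complex.normSq_eq_conj_mul_self]
    rfl
  rw [e, e] at h
  exact_mod_cast h

end basisChange

/-- diagonal matrix with real entries. -/
noncomputable def dia (l : Fin N → ℝ) : Matrix (Fin N) (Fin N) ℂ :=
  Matrix.diagonal fun i => (l i : ℂ)

lemma itV_dia (l : Fin N → ℝ) (P : Matrix (Fin N) (Fin N) ℂ) (n : ℕ) (i j : Fin N) :
    itV (dia l) P n i j = (((l i + l j) ^ n : ℝ) : ℂ) * P i j := by
  induction n with
  | zero => simp [itV]
  | succ m ih =>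
    simp only [itV, dia, Matrix.add_apply, Matrix.diagonal_mul, Matrix.mul_diagonal] at ih ⊢
    rw [ih]
    push_cast
    ring

lemma itD_dia (l : Fin N → ℝ) (u : Fin N → ℂ) (Q : Matrix (Fin N) (Fin N) ℂ) (n : ℕ)
    (i j : Fin N) :
    itD (dia l) (outer u u) (outer u u) Q n i j = (((l i + l j) ^ n : ℝ) : ℂ) * Q i j +
      ∑ k, ((geo n (l i + l j) (l k + l j) + geo n (l i + l j) (l i + l k) : ℝ) : ℂ) *
        (u i * conj (u k) * u k * conj (u j)) := by
  induction n with
  | zero => simp [itD, geo]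
  | succ m ih =>
    simp only [itD, Matrix.add_apply, Matrix.mul_apply (M := outer u u),
      Matrix.mul_apply (N := outer u u), itV_dia]
    rw [dia, Matrix.diagonal_mul, Matrix.mul_diagonal, ← dia, ih]
    simp only [outer, Matrix.of_apply]
    set m' : Fin N → ℂ := fun k => u i * conj (u k) * u k * conj (u j)
    set S := ∑ k, ((geo m (l i + l j) (l k + l j) + geo m (l i + l j) (l i + l k) : ℝ) : ℂ) * m' k
      with hS
    have hR : ∑ k, ((geo (m + 1) (l i + l j) (l k + l j) + geo (m + 1) (l i + l j) (l i + l k) : ℝ) : ℂ)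
        * m' k = ((l i + l j : ℝ) : ℂ) * S +
          ∑ k, u i * conj (u k) * ((((l k + l j) ^ m : ℝ) : ℂ) * (u k * conj (u j))) +
          ∑ k, ((((l i + l k) ^ m : ℝ) : ℂ) * (u i * conj (u k))) * (u k * conj (u j)) := by
      rw [hS, Finset.mul_sum, ← Finset.sum_add_distrib, ← Finset.sum_add_distrib]
      refine Finset.sum_congr rfl fun k _ => ?_
      simp only [geo, m']
      push_cast
      ring
    rw [hR, pow_succ]
    push_cast
    ring

lemma re_triple (l : Fin N → ℝ) (u w : Fin N → ℂ) (n : ℕ) :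
    (form w (itV (dia l) (outer u u) n) u +
        form u (itD (dia l) (outer u u) (outer u u) (outer w u + outer u w) n) u +
        form u (itV (dia l) (outer u u) n) w).re =
      4 * ∑ i, ∑ j, (l i + l j) ^ n * Complex.normSq (u j) * (conj (u i) * w i).re +
      2 * ∑ i, ∑ j, ∑ k, Complex.normSq (u i) * Complex.normSq (u k) * Complex.normSq (u j) *
        geo n (l i + l j) (l k + l j) := by
  set p : Fin N → ℝ := fun i => Complex.normSq (u i) with hp
  set z : Fin N → ℝ := fun i => (conj (u i) * w i).re with hz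
  have hns : ∀ i, conj (u i) * u i = (p i : ℂ) := fun i => by
    rw [hp]; exact (Complex.normSq_eq_conj_mul_self).symm
  have hns' : ∀ i, u i * conj (u i) = (p i : ℂ) := fun i => by rw [mul_comm]; exact hns i
  have hz' : ∀ i, (u i * conj (w i)).re = z i := fun i => by
    simp only [hz, Complex.mul_re, Complex.conj_re, Complex.conj_im]; ring
  have e1 : (form w (itV (dia l) (outer u u) n) u).re =
      ∑ i, ∑ j, (l i + l j) ^ n * p j * z i := by
    simp only [form, itV_dia, Complex.re_sum, outer, Matrix.of_apply]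
    refine Finset.sum_congr rfl fun i _ => Finset.sum_congr rfl fun j _ => ?_
    rw [show conj (w i) * ((((l i + l j) ^ n : ℝ) : ℂ) * (u i * conj (u j))) * u j =
      (((l i + l j) ^ n : ℝ) : ℂ) * (conj (u j) * u j) * (u i * conj (w i)) by ring, hns,
      ← Complex.ofReal_mul, Complex.re_ofReal_mul, hz']
  have e3 : (form u (itV (dia l) (outer u u) n) w).re =
      ∑ i, ∑ j, (l i + l j) ^ n * p j * z i := by
    simp only [form, itV_dia, Complex.re_sum, outer, Matrix.of_apply]
    rw [Finset.sum_comm]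
    refine Finset.sum_congr rfl fun i _ => Finset.sum_congr rfl fun j _ => ?_
    rw [show conj (u j) * ((((l j + l i) ^ n : ℝ) : ℂ) * (u j * conj (u i))) * w i =
      (((l j + l i) ^ n : ℝ) : ℂ) * (conj (u j) * u j) * (conj (u i) * w i) by ring, hns,
      ← Complex.ofReal_mul, Complex.re_ofReal_mul, add_comm (l j)]
  have e2 : (form u (itD (dia l) (outer u u) (outer u u) (outer w u + outer u w) n) u).re =
      2 * (∑ i, ∑ j, (l i + l j) ^ n * p j * z i) +
      2 * ∑ i, ∑ j, ∑ k, p i * p k * p j * geo n (l i + l j) (l k + l j) := by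
    have hA : ∀ i j, (conj (u i) * ((((l i + l j) ^ n : ℝ) : ℂ) *
        ((outer w u + outer u w) i j)) * u j).re =
        (l i + l j) ^ n * p j * z i + (l i + l j) ^ n * p i * z j := by
      intro i j
      simp only [Matrix.add_apply, outer, Matrix.of_apply]
      rw [show conj (u i) * ((((l i + l j) ^ n : ℝ) : ℂ) * (w i * conj (u j) + u i * conj (w j))) * u j
        = (((l i + l j) ^ n : ℝ) : ℂ) * (conj (u j) * u j) * (conj (u i) * w i) +
          (((l i + l j) ^ n : ℝ) : ℂ) * (conj (u i) * u i) * (u j * conj (w j)) by ring, hns, hns,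
        Complex.add_re, ← Complex.ofReal_mul, ← Complex.ofReal_mul, Complex.re_ofReal_mul,
        Complex.re_ofReal_mul, hz']
    have hB : ∀ i j k, (conj (u i) * (((geo n (l i + l j) (l k + l j) +
        geo n (l i + l j) (l i + l k) : ℝ) : ℂ) * (u i * conj (u k) * u k * conj (u j))) * u j).re =
        p i * p k * p j * geo n (l i + l j) (l k + l j) +
          p i * p k * p j * geo n (l i + l j) (l i + l k) := by
      intro i j k
      rw [show conj (u i) * (((geo n (l i + l j) (l k + l j) + geo n (l i + l j) (l i + l k) : ℝ) : ℂ) *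
          (u i * conj (u k) * u k * conj (u j))) * u j =
        ((geo n (l i + l j) (l k + l j) + geo n (l i + l j) (l i + l k) : ℝ) : ℂ) *
          ((conj (u i) * u i) * (conj (u k) * u k) * (conj (u j) * u j)) by ring, hns, hns, hns,
        ← Complex.ofReal_mul, ← Complex.ofReal_mul, ← Complex.ofReal_mul, Complex.ofReal_re]
      ring
    simp only [form, itD_dia, mul_add, add_mul, Finset.mul_sum, Finset.sum_mul,
      Finset.sum_add_distrib, Complex.add_re, Complex.re_sum, hA, hB]
    have s1 : ∑ i, ∑ j, (l i + l j) ^ n * p i * z j = ∑ i, ∑ j, (l i + l j) ^ n * p j * z i := by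
      rw [Finset.sum_comm]
      exact Finset.sum_congr rfl fun i _ => Finset.sum_congr rfl fun j _ => by rw [add_comm (l j)]
    have s2 : ∑ i, ∑ j, ∑ k, p i * p k * p j * geo n (l i + l j) (l i + l k) =
        ∑ i, ∑ j, ∑ k, p i * p k * p j * geo n (l i + l j) (l k + l j) := by
      rw [Finset.sum_comm]
      refine Finset.sum_congr rfl fun i _ => Finset.sum_congr rfl fun j _ =>
        Finset.sum_congr rfl fun k _ => ?_
      rw [add_comm (l j) (l i), add_comm (l j) (l k)]
      ring
    rw [s1, s2]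
    simp only [two_mul, Finset.sum_add_distrib]
  rw [Complex.add_re, Complex.add_re, e1, e2, e3]
  ring

/-- The pointwise inequality in diagonal form. -/
lemma calibD_dia_le (d : ℕ) (q : ℕ → ℝ) {ε η C : ℝ} (hε : 0 < ε) (hη : 0 ≤ η)
    (hq : ∀ a ∈ Icc (2 * ε) (2 - 2 * ε), ∀ b ∈ Icc (2 * ε) (2 - 2 * ε),
      |qv d q a - kc a| ≤ η ∧ |qdd d q a b - dk a b| ≤ η)
    (hC : ∀ a ∈ Icc (2 * ε) (2 - 2 * ε), |kc a| ≤ C)
    (l : Fin N → ℝ) (hl : ∀ i, l i ∈ Icc ε (1 - ε)) (u w : Fin N → ℂ) :
    calibD d q (dia l) u w ≤ 4 * ∑ i, Complex.normSq (w i) -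
      (Real.pi ^ 2 - η * (2 + 2 * C + η)) * (∑ i, Complex.normSq (u i)) ^ 3 := by
  set p : Fin N → ℝ := fun i => Complex.normSq (u i) with hp
  set z : Fin N → ℝ := fun i => (conj (u i) * w i).re
  have hσ : ∀ i j, l i + l j ∈ Icc (2 * ε) (2 - 2 * ε) := fun i j =>
    ⟨by linarith [(hl i).1, (hl j).1], by linarith [(hl i).2, (hl j).2]⟩
  have hdef : calibD d q (dia l) u w =
      4 * ∑ i, ∑ j, qv d q (l i + l j) * p j * z i +
      2 * ∑ i, ∑ j, ∑ k, p i * p k * p j * qdd d q (l i + l j) (l k + l j) := by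
    simp only [calibD, re_triple, qv, qdd, mul_add, Finset.sum_add_distrib, Finset.mul_sum,
      Finset.sum_mul]
    congr 1
    · rw [Finset.sum_comm]
      refine Finset.sum_congr rfl fun i _ => ?_
      rw [Finset.sum_comm]
      exact Finset.sum_congr rfl fun j _ => Finset.sum_congr rfl fun n _ => by ring
    · rw [Finset.sum_comm]
      refine Finset.sum_congr rfl fun i _ => ?_
      rw [Finset.sum_comm]
      refine Finset.sum_congr rfl fun j _ => ?_
      rw [Finset.sum_comm]
      exact Finset.sum_congr rfl fun k _ => Finset.sum_congr rfl fun n _ => by ring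
  set Qv : Fin N → ℝ := fun i => ∑ j, qv d q (l i + l j) * p j with hQv
  have hsq : ∀ i, 4 * (Qv i * z i) ≤ 4 * Complex.normSq (w i) + Qv i ^ 2 * p i := by
    intro i
    have := Complex.normSq_nonneg ((2 : ℂ) * w i - (Qv i : ℂ) * u i)
    simp only [z, p, Complex.normSq_apply, Complex.sub_re, Complex.sub_im, Complex.mul_re,
      Complex.mul_im, Complex.re_ofNat, Complex.im_ofNat, Complex.ofReal_re, Complex.ofReal_im,
      Complex.conj_re, Complex.conj_im] at this ⊢
    nlinarith
  have h1 : 4 * ∑ i, ∑ j, qv d q (l i + l j) * p j * z i ≤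
      4 * ∑ i, Complex.normSq (w i) + ∑ i, Qv i ^ 2 * p i := by
    rw [Finset.mul_sum, Finset.mul_sum, ← Finset.sum_add_distrib]
    refine Finset.sum_le_sum fun i _ => ?_
    rw [← Finset.sum_mul]
    exact hsq i
  have h2 : ∑ i, Qv i ^ 2 * p i = ∑ i, ∑ j, ∑ k,
      p i * p k * p j * (qv d q (l i + l j) * qv d q (l k + l j)) := by
    have : ∀ n, Qv n ^ 2 * p n = ∑ i, ∑ k,
        p i * p k * p n * (qv d q (l i + l n) * qv d q (l k + l n)) := fun n => by
      simp only [hQv, pow_two, Finset.sum_mul, Finset.mul_sum]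
      rw [Finset.sum_comm]
      exact Finset.sum_congr rfl fun i _ => Finset.sum_congr rfl fun k _ => by
        rw [add_comm (l n) (l i), add_comm (l n) (l k)]; ring
    simp only [this]
    rw [Finset.sum_comm]
  have h3 : ∑ i, ∑ j, ∑ k, p i * p k * p j *
      (2 * qdd d q (l i + l j) (l k + l j) + qv d q (l i + l j) * qv d q (l k + l j)) ≤
      (-Real.pi ^ 2 + η * (2 + 2 * C + η)) * (∑ i, p i) ^ 3 := by
    have e : (∑ i, p i) ^ 3 = ∑ i, ∑ j, ∑ k, p i * p k * p j := by
      rw [pow_succ, pow_two, Finset.sum_mul_sum, Finset.sum_mul]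
      refine Finset.sum_congr rfl fun i _ => ?_
      rw [Finset.sum_mul]
      refine Finset.sum_congr rfl fun j _ => ?_
      rw [Finset.mul_sum]
      exact Finset.sum_congr rfl fun k _ => by ring
    rw [e]
    simp only [Finset.mul_sum]
    refine Finset.sum_le_sum fun i _ => Finset.sum_le_sum fun j _ => Finset.sum_le_sum fun k _ => ?_
    have hpp : 0 ≤ p i * p k * p j := by
      simp only [hp]
      exact mul_nonneg (mul_nonneg (Complex.normSq_nonneg _) (Complex.normSq_nonneg _))
        (Complex.normSq_nonneg _)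
    rw [mul_comm (-Real.pi ^ 2 + η * (2 + 2 * C + η))]
    refine mul_le_mul_of_nonneg_left ?_ hpp
    obtain ⟨a1, a2⟩ := hq _ (hσ i j) _ (hσ k j)
    obtain ⟨a3, -⟩ := hq _ (hσ k j) _ (hσ i j)
    have c1 := hC _ (hσ i j)
    have c2 := hC _ (hσ k j)
    have ht := triple_le (l := l i) (m := l k) (n := l j)
      ⟨hε.trans_le (hl i).1, by linarith [(hl i).2]⟩ ⟨hε.trans_le (hl k).1, by linarith [(hl k).2]⟩
      ⟨hε.trans_le (hl j).1, by linarith [(hl j).2]⟩
    set A := qv d q (l i + l j)
    set B := qv d q (l k + l j)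
    set A' := kc (l i + l j)
    set B' := kc (l k + l j)
    have hprod : A * B - A' * B' ≤ η * (2 * C + η) := by
      have : A * B - A' * B' = (A - A') * B' + A' * (B - B') + (A - A') * (B - B') := by ring
      rw [this]
      have b1 : (A - A') * B' ≤ η * C := (le_abs_self _).trans (by
        rw [abs_mul]; exact mul_le_mul a1 c2 (abs_nonneg _) hη)
      have b2 : A' * (B - B') ≤ C * η := (le_abs_self _).trans (by
        rw [abs_mul]; exact mul_le_mul c1 a3 (abs_nonneg _) ((abs_nonneg _).trans c1))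
      have b3 : (A - A') * (B - B') ≤ η * η := (le_abs_self _).trans (by
        rw [abs_mul]; exact mul_le_mul a1 a3 (abs_nonneg _) hη)
      linarith
    nlinarith [(abs_le.1 a2).2]
  have h4 : 2 * ∑ i, ∑ j, ∑ k, p i * p k * p j * qdd d q (l i + l j) (l k + l j) +
      ∑ i, ∑ j, ∑ k, p i * p k * p j * (qv d q (l i + l j) * qv d q (l k + l j)) =
      ∑ i, ∑ j, ∑ k, p i * p k * p j *
      (2 * qdd d q (l i + l j) (l k + l j) + qv d q (l i + l j) * qv d q (l k + l j)) := by
    simp only [Finset.mul_sum, ← Finset.sum_add_distrib]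
    exact Finset.sum_congr rfl fun i _ => Finset.sum_congr rfl fun j _ =>
      Finset.sum_congr rfl fun k _ => by ring
  rw [hdef]
  linarith

/-- The pointwise inequality for a Hermitian `G` with spectrum in `[ε, 1-ε]`. -/
lemma calibD_le (d : ℕ) (q : ℕ → ℝ) {ε η C : ℝ} (hε : 0 < ε) (hη : 0 ≤ η)
    (hq : ∀ a ∈ Icc (2 * ε) (2 - 2 * ε), ∀ b ∈ Icc (2 * ε) (2 - 2 * ε),
      |qv d q a - kc a| ≤ η ∧ |qdd d q a b - dk a b| ≤ η)
    (hC : ∀ a ∈ Icc (2 * ε) (2 - 2 * ε), |kc a| ≤ C)
    {G : Matrix (Fin N) (Fin N) ℂ} (hG : G.IsHermitian) (hl : ∀ i, hG.eigenvalues i ∈ Icc ε (1 - ε))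
    (a c : Fin N → ℂ) :
    calibD d q G a c ≤ 4 * ∑ i, Complex.normSq (c i) -
      (Real.pi ^ 2 - η * (2 + 2 * C + η)) * (∑ i, Complex.normSq (a i)) ^ 3 := by
  set U : Matrix (Fin N) (Fin N) ℂ := (hG.eigenvectorUnitary : Matrix (Fin N) (Fin N) ℂ) with hUdef
  have hU : U * star U = 1 := Unitary.coe_mul_star_self _
  have hU' : star U * U = 1 := Unitary.coe_star_mul_self _
  have hdia : toBasisM U G = dia hG.eigenvalues := by
    have h := hG.spectral_theorem
    simp only [Unitary.conjStarAlgAut_apply] at h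
    rw [toBasisM]
    conv_lhs => rw [h]
    rw [← hUdef, show star U * (U * Matrix.diagonal (RCLike.ofReal ∘ hG.eigenvalues) * star U) * U =
      (star U * U) * Matrix.diagonal (RCLike.ofReal ∘ hG.eigenvalues) * (star U * U) by
        simp only [Matrix.mul_assoc], hU', one_mul, mul_one]
    rfl
  have hinv : calibD d q G a c = calibD d q (dia hG.eigenvalues) (toBasis U a) (toBasis U c) := by
    simp only [calibD]
    refine Finset.sum_congr rfl fun n _ => ?_
    rw [← hdia]
    simp only [← toBasisM_outer (U := U), ← toBasisM_add (U := U), ← toBasisM_itV hU,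
      ← toBasisM_itD hU, form_toBasis hU]
  rw [hinv, ← normSq_toBasis hU c, ← normSq_toBasis hU a]
  exact calibD_dia_le d q hε hη hq hC _ hl _ _

end Vale.Agent.P371
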