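import Mathlib
import Vale.Agent.P371.Pointwise

/-!
The inequality on an interval, for continuously differentiable functions.
-/

open Set Filter Topology Matrix MeasureTheory intervalIntegral
open scoped BigOperators ComplexConjugate

namespace Vale.Agent.P371

variable {N : ℕ}

/-- total density -/
noncomputable def dens (φ : Fin N → ℝ → ℂ) (x : ℝ) : ℝ := ∑ i, Complex.normSq (φ i x)

lemma dens_nonneg (φ : Fin N → ℝ → ℂ) (x : ℝ) : 0 ≤ dens φ x :=
  Finset.sum_nonneg fun _ _ => Complex.normSq_nonneg _

lemma diag_entry_eq_eigen {G : Matrix (Fin N) (Fin N) ℂ} (hG : G.IsHermitian) :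
    toBasisM (hG.eigenvectorUnitary : Matrix (Fin N) (Fin N) ℂ) G = dia hG.eigenvalues := by
  set U : Matrix (Fin N) (Fin N) ℂ := (hG.eigenvectorUnitary : Matrix (Fin N) (Fin N) ℂ) with hUdef
  have hU' : star U * U = 1 := Unitary.coe_star_mul_self _
  have h := hG.spectral_theorem
  simp only [Unitary.conjStarAlgAut_apply] at h
  rw [toBasisM]
  conv_lhs => rw [h]
  rw [← hUdef, show star U * (U * Matrix.diagonal (RCLike.ofReal ∘ hG.eigenvalues) * star U) * U =
    (star U * U) * Matrix.diagonal (RCLike.ofReal ∘ hG.eigenvalues) * (star U * U) by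
      simp only [Matrix.mul_assoc], hU', one_mul, mul_one]
  rfl

lemma eigen_mem {G : Matrix (Fin N) (Fin N) ℂ} (hG : G.IsHermitian) {lo hi : ℝ}
    (h : ∀ v : Fin N → ℂ, lo * ∑ i, Complex.normSq (v i) ≤ (form v G v).re ∧
      (form v G v).re ≤ hi * ∑ i, Complex.normSq (v i)) (i : Fin N) :
    hG.eigenvalues i ∈ Icc lo hi := by
  set U : Matrix (Fin N) (Fin N) ℂ := (hG.eigenvectorUnitary : Matrix (Fin N) (Fin N) ℂ) with hUdef
  have hU' : star U * U = 1 := Unitary.coe_star_mul_self _
  set v : Fin N → ℂ := fun j => U j i with hv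
  have h1 : ((∑ j, Complex.normSq (v j) : ℝ) : ℂ) = 1 := by
    have := congrFun (congrFun hU' i) i
    rw [Matrix.mul_apply, Matrix.one_apply_eq] at this
    rw [← this]
    push_cast
    refine Finset.sum_congr rfl fun j _ => ?_
    rw [Complex.normSq_eq_conj_mul_self]
    rfl
  have h2 : form v G v = (hG.eigenvalues i : ℂ) := by
    have := congrFun (congrFun (diag_entry_eq_eigen hG) i) i
    simp only [dia, Matrix.diagonal_apply_eq] at this
    rw [← this]
    simp only [toBasisM, Matrix.mul_apply, form, Finset.sum_mul, Matrix.star_apply, hv,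
      ← hUdef]
    rw [Finset.sum_comm]
    rfl
  have h1' : ∑ j, Complex.normSq (v j) = 1 := by exact_mod_cast h1
  have := h v
  rw [h1', h2, Complex.ofReal_re, mul_one, mul_one] at this
  exact this

lemma calib_abs_le (d : ℕ) (q : ℕ → ℝ) {ε η C : ℝ}
    (hq : ∀ a ∈ Icc (2 * ε) (2 - 2 * ε), ∀ b ∈ Icc (2 * ε) (2 - 2 * ε),
      |qv d q a - kc a| ≤ η ∧ |qdd d q a b - dk a b| ≤ η)
    (hC : ∀ a ∈ Icc (2 * ε) (2 - 2 * ε), |kc a| ≤ C)
    {G : Matrix (Fin N) (Fin N) ℂ} (hG : G.IsHermitian) (hl : ∀ i, hG.eigenvalues i ∈ Icc ε (1 - ε))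
    (a : Fin N → ℂ) :
    |calib d q G a| ≤ (C + η) * (∑ i, Complex.normSq (a i)) ^ 2 := by
  set U : Matrix (Fin N) (Fin N) ℂ := (hG.eigenvectorUnitary : Matrix (Fin N) (Fin N) ℂ) with hUdef
  have hU : U * star U = 1 := Unitary.coe_mul_star_self _
  set l := hG.eigenvalues
  set u := toBasis U a
  have hdia : toBasisM U G = dia l := diag_entry_eq_eigen hG
  have hσ : ∀ i j, l i + l j ∈ Icc (2 * ε) (2 - 2 * ε) := fun i j =>
    ⟨by linarith [(hl i).1, (hl j).1], by linarith [(hl i).2, (hl j).2]⟩
  have e : calib d q G a = ∑ i, ∑ j, Complex.normSq (u i) * Complex.normSq (u j) *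
      qv d q (l i + l j) := by
    have e1 : calib d q G a = ∑ n ∈ Finset.range d, q n *
        (form u (itV (dia l) (outer u u) n) u).re := by
      refine Finset.sum_congr rfl fun n _ => ?_
      rw [← hdia, show u = toBasis U a from rfl, ← toBasisM_outer, ← toBasisM_itV hU,
        form_toBasis hU]
    rw [e1]
    simp only [qv, Finset.mul_sum, form, itV_dia, Complex.re_sum, outer, Matrix.of_apply]
    rw [Finset.sum_comm]
    refine Finset.sum_congr rfl fun i _ => ?_
    rw [Finset.sum_comm]
    refine Finset.sum_congr rfl fun j _ => Finset.sum_congr rfl fun n _ => ?_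
    rw [show conj (u i) * ((((l i + l j) ^ n : ℝ) : ℂ) * (u i * conj (u j))) * u j =
      (((l i + l j) ^ n : ℝ) : ℂ) * ((conj (u i) * u i) * (conj (u j) * u j)) by ring,
      ← Complex.normSq_eq_conj_mul_self, ← Complex.normSq_eq_conj_mul_self,
      ← Complex.ofReal_mul, ← Complex.ofReal_mul, Complex.ofReal_re]
    ring
  rw [e, ← normSq_toBasis hU a, pow_two, Finset.sum_mul_sum, Finset.mul_sum]
  refine (Finset.abs_sum_le_sum_abs _ _).trans (Finset.sum_le_sum fun i _ => ?_)
  rw [Finset.mul_sum]
  refine (Finset.abs_sum_le_sum_abs _ _).trans (Finset.sum_le_sum fun j _ => ?_)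
  rw [abs_mul, abs_of_nonneg (mul_nonneg (Complex.normSq_nonneg _) (Complex.normSq_nonneg _)),
    mul_comm]
  refine mul_le_mul_of_nonneg_right ?_ (mul_nonneg (Complex.normSq_nonneg _) (Complex.normSq_nonneg _))
  have h1 := (hq _ (hσ i j) _ (hσ i j)).1
  have h2 := hC _ (hσ i j)
  calc |qv d q (l i + l j)| = |(qv d q (l i + l j) - kc (l i + l j)) + kc (l i + l j)| := by
        rw [sub_add_cancel]
    _ ≤ _ := (abs_add_le _ _).trans (by linarith)

/-- The matrix `ε + ∫_a^x φ φ*`. -/
noncomputable def gram (ε a : ℝ) (φ : Fin N → ℝ → ℂ) (x : ℝ) : Matrix (Fin N) (Fin N) ℂ :=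
  Matrix.of fun i j => (if i = j then (ε : ℂ) else 0) + ∫ t in a..x, φ i t * conj (φ j t)

lemma gram_isHermitian (ε a : ℝ) (φ : Fin N → ℝ → ℂ) (x : ℝ) : (gram ε a φ x).IsHermitian := by
  ext i j
  simp only [Matrix.conjTranspose_apply, gram, Matrix.of_apply, star_add]
  congr 1
  · rcases eq_or_ne i j with rfl | h
    · simp
    · simp [h, h.symm]
  · show conj (∫ t in a..x, φ j t * conj (φ i t)) = _
    rw [← intervalIntegral_conj]
    refine intervalIntegral.integral_congr fun t _ => ?_
    simp only [map_mul, Complex.conj_conj]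
    ring

lemma form_gram (ε a : ℝ) {φ : Fin N → ℝ → ℂ} (hφ : ∀ i, Continuous (φ i)) (x : ℝ)
    (v : Fin N → ℂ) : (form v (gram ε a φ x) v).re =
      ε * ∑ i, Complex.normSq (v i) + ∫ t in a..x, Complex.normSq (∑ i, conj (v i) * φ i t) := by
  have hint : ∀ i j, IntervalIntegrable (fun t => conj (v i) * (φ i t * conj (φ j t)) * v j)
      volume a x := fun i j => Continuous.intervalIntegrable (by have := hφ i; have := hφ j; fun_prop) a x
  have e : form v (gram ε a φ x) v = ((ε * ∑ i, Complex.normSq (v i) : ℝ) : ℂ) +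
      ((∫ t in a..x, Complex.normSq (∑ i, conj (v i) * φ i t) : ℝ) : ℂ) := by
    simp only [form, gram, Matrix.of_apply, mul_add, add_mul, Finset.sum_add_distrib]
    congr 1
    · simp only [mul_ite, ite_mul, mul_zero, zero_mul, Finset.sum_ite_eq, Finset.mem_univ, ↓reduceIte,
        Finset.mul_sum, Complex.ofReal_sum, Complex.ofReal_mul]
      refine Finset.sum_congr rfl fun i _ => ?_
      rw [Complex.normSq_eq_conj_mul_self]
      ring
    · rw [← intervalIntegral.integral_ofReal]
      simp only [← intervalIntegral.integral_const_mul, ← intervalIntegral.integral_mul_const]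
      rw [Finset.sum_congr rfl fun i _ => (intervalIntegral.integral_finsetSum fun j _ => hint i j).symm]
      rw [← intervalIntegral.integral_finsetSum fun i _ =>
        Continuous.intervalIntegrable (by fun_prop) a x]
      refine intervalIntegral.integral_congr fun t _ => ?_
      simp only [← Complex.mul_conj, map_sum, map_mul, Complex.conj_conj, Finset.sum_mul_sum]
      exact Finset.sum_congr rfl fun i _ => Finset.sum_congr rfl fun j _ => by ring
  rw [e, Complex.add_re, Complex.ofReal_re, Complex.ofReal_re]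

/-- A bound for `|kc|`. -/
lemma exists_kc_bound {ε : ℝ} (hε : 0 < ε) :
    ∃ C, 0 ≤ C ∧ ∀ a ∈ Icc (2 * ε) (2 - 2 * ε), |kc a| ≤ C := by
  obtain ⟨C, hC⟩ := isCompact_Icc.exists_bound_of_continuousOn
    (continuousOn_kc (show 0 < 2 * ε by positivity))
  exact ⟨max C 0, le_max_right _ _, fun a ha => (hC a ha).trans (le_max_left _ _)⟩

/-- The inequality on an interval for `C¹` functions. -/
theorem interval_ineq {φ g : Fin N → ℝ → ℂ} (hg : ∀ i, Continuous (g i))
    (hd : ∀ i x, HasDerivAt (φ i) (g i x) x) {a b ε : ℝ} (hab : a ≤ b) (hε : 0 < ε) (hε' : ε ≤ 1 / 2)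
    {C : ℝ} (hC : ∀ x ∈ Icc (2 * ε) (2 - 2 * ε), |kc x| ≤ C)
    (hgram : ∀ v : Fin N → ℂ, (∫ t in a..b, Complex.normSq (∑ i, conj (v i) * φ i t)) ≤
      (1 - 2 * ε) * ∑ i, Complex.normSq (v i)) :
    Real.pi ^ 2 * ∫ x in a..b, dens φ x ^ 3 ≤
      4 * (∫ x in a..b, dens g x) + C * (dens φ a ^ 2 + dens φ b ^ 2) := by
  have hφ : ∀ i, Continuous (φ i) := fun i =>
    continuous_iff_continuousAt.2 fun x => (hd i x).continuousAt
  have hdens : Continuous (dens φ) := continuous_finsetSum _ fun i _ =>
    Complex.continuous_normSq.comp (hφ i)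
  have hdensg : Continuous (dens g) := continuous_finsetSum _ fun i _ =>
    Complex.continuous_normSq.comp (hg i)
  set A := ∫ x in a..b, dens φ x ^ 3 with hA
  have hA0 : 0 ≤ A := intervalIntegral.integral_nonneg hab fun x _ => pow_nonneg (dens_nonneg _ _) 3
  have key : ∀ η : ℝ, 0 < η → η ≤ 1 → Real.pi ^ 2 * A ≤ 4 * (∫ x in a..b, dens g x) +
      C * (dens φ a ^ 2 + dens φ b ^ 2) + η * ((2 + 2 * C + 1) * A + (dens φ a ^ 2 + dens φ b ^ 2)) := by
    intro η hη hη1
    obtain ⟨d, q, hq⟩ := exists_poly (show 0 < 2 * ε by positivity) (by linarith) hη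
    have hspec : ∀ x ∈ Icc a b, ∀ i,
        (gram_isHermitian ε a φ x).eigenvalues i ∈ Icc ε (1 - ε) := by
      intro x hx i
      refine eigen_mem _ (fun v => ?_) i
      rw [form_gram ε a hφ]
      have hc : Continuous fun t => Complex.normSq (∑ i, conj (v i) * φ i t) :=
        Complex.continuous_normSq.comp (by fun_prop)
      have h0 : 0 ≤ ∫ t in a..x, Complex.normSq (∑ i, conj (v i) * φ i t) :=
        intervalIntegral.integral_nonneg hx.1 fun t _ => Complex.normSq_nonneg _
      have h1 : (∫ t in a..x, Complex.normSq (∑ i, conj (v i) * φ i t)) ≤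
          ∫ t in a..b, Complex.normSq (∑ i, conj (v i) * φ i t) :=
        intervalIntegral.integral_mono_interval le_rfl hx.1 hx.2
          (Eventually.of_forall fun t => Complex.normSq_nonneg _) (hc.intervalIntegrable a b)
      have := hgram v
      constructor <;> nlinarith
    set Φ : ℝ → ℝ := fun x => calib d q (gram ε a φ x) (fun i => φ i x)
    set Φ' : ℝ → ℝ := fun x => calibD d q (gram ε a φ x) (fun i => φ i x) (fun i => g i x)
    have hG : ∀ x i j, HasDerivAt (fun t => gram ε a φ t i j)
        (outer (fun i => φ i x) (fun i => φ i x) i j) x := fun x i j => by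
      have hc : Continuous fun t => φ i t * conj (φ j t) := by have := hφ i; have := hφ j; fun_prop
      exact ((hc.integral_hasStrictDerivAt a x).hasDerivAt).const_add _
    have hΦ : ∀ x, HasDerivAt Φ (Φ' x) x := fun x =>
      hasDerivAt_calib d q (hG x) (fun i => hd i x)
    have hGc : ∀ i j, Continuous fun t => gram ε a φ t i j := fun i j =>
      continuous_iff_continuousAt.2 fun x => (hG x i j).continuousAt
    have hitV : ∀ n i j, Continuous fun x => itV (gram ε a φ x) (outer (fun i => φ i x) (fun i => φ i x)) n i j := by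
      intro n
      induction n with
      | zero => intro i j; simp only [itV, outer, Matrix.of_apply]; fun_prop
      | succ m ih =>
        intro i j
        simp only [itV, Matrix.add_apply, Matrix.mul_apply]
        fun_prop
    have hitD : ∀ n i j, Continuous fun x => itD (gram ε a φ x) (outer (fun i => φ i x) (fun i => φ i x))
        (outer (fun i => φ i x) (fun i => φ i x))
        (outer (fun i => g i x) (fun i => φ i x) + outer (fun i => φ i x) (fun i => g i x)) n i j := by
      intro n
      induction n with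
      | zero => intro i j; simp only [itD, outer, Matrix.add_apply, Matrix.of_apply]; fun_prop
      | succ m ih =>
        intro i j
        simp only [itD, Matrix.add_apply, Matrix.mul_apply]
        have hO : ∀ i j, Continuous fun x => outer (fun i => φ i x) (fun i => φ i x) i j := fun i j => by
          simp only [outer, Matrix.of_apply]; fun_prop
        fun_prop
    have hΦ'c : Continuous Φ' := by
      simp only [Φ', calibD, form]
      fun_prop
    have hFTC : ∫ x in a..b, Φ' x = Φ b - Φ a :=
      intervalIntegral.integral_eq_sub_of_hasDerivAt (fun x _ => hΦ x) (hΦ'c.intervalIntegrable a b)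
    have hle : ∫ x in a..b, Φ' x ≤
        ∫ x in a..b, (4 * dens g x - (Real.pi ^ 2 - η * (2 + 2 * C + η)) * dens φ x ^ 3) := by
      refine intervalIntegral.integral_mono_on hab (hΦ'c.intervalIntegrable a b)
        (Continuous.intervalIntegrable (by fun_prop) a b) fun x hx => ?_
      exact calibD_le d q hε hη.le hq hC _ (hspec x hx) _ _
    rw [hFTC, intervalIntegral.integral_sub ((hdensg.const_mul 4).intervalIntegrable a b)
      (Continuous.intervalIntegrable (by fun_prop) a b), intervalIntegral.integral_const_mul,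
      intervalIntegral.integral_const_mul, ← hA] at hle
    have ha' := abs_le.1 (calib_abs_le d q hq hC _ (hspec a (left_mem_Icc.2 hab)) fun i => φ i a)
    have hb' := abs_le.1 (calib_abs_le d q hq hC _ (hspec b (right_mem_Icc.2 hab)) fun i => φ i b)
    have h1 : η * (2 + 2 * C + η) * A ≤ η * (2 + 2 * C + 1) * A := by gcongr
    simp only [Φ] at hle
    simp only [dens] at *
    linarith [ha'.1, ha'.2, hb'.1, hb'.2]
  refine le_of_forall_pos_le_add fun δ hδ => ?_
  set M := |(2 + 2 * C + 1) * A + (dens φ a ^ 2 + dens φ b ^ 2)| + 1 with hM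
  have hMpos : 0 < M := by positivity
  set η := min 1 (δ / M) with hηdef
  have hη : 0 < η := lt_min one_pos (div_pos hδ hMpos)
  have h1 := key η hη (min_le_left _ _)
  have h2 : η * ((2 + 2 * C + 1) * A + (dens φ a ^ 2 + dens φ b ^ 2)) ≤ δ := by
    calc η * ((2 + 2 * C + 1) * A + (dens φ a ^ 2 + dens φ b ^ 2))
        ≤ η * M := mul_le_mul_of_nonneg_left (by rw [hM]; linarith [le_abs_self ((2 + 2 * C + 1) * A + (dens φ a ^ 2 + dens φ b ^ 2))]) hη.le
      _ ≤ δ / M * M := mul_le_mul_of_nonneg_right (min_le_right _ _) hMpos.le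
      _ = δ := by field_simp
  linarith

end Vale.Agent.P371
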