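import Mathlib
import Vale.Agent.P371.Interval
import Vale.Agent.P371.Defs

/-!
The sharp kinetic inequality on the line and its dual.
-/

open Set Filter Topology MeasureTheory
open scoped BigOperators ComplexConjugate ENNReal

namespace Vale.Agent.P371

variable {N : ℕ}

lemma IsH1.intervalIntegrable {ψ ψd : ℝ → ℂ} (h : IsH1 ψ ψd) (a b : ℝ) :
    IntervalIntegrable ψd volume a b := by
  rw [intervalIntegrable_iff]
  haveI : IsFiniteMeasure (volume.restrict (uIoc a b)) := by
    constructor
    rw [Measure.restrict_apply_univ, uIoc, Real.volume_Ioc]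
    exact ENNReal.ofReal_lt_top
  exact (h.2.1.restrict _).integrable (by norm_num)

lemma IsH1.continuous {ψ ψd : ℝ → ℂ} (h : IsH1 ψ ψd) : Continuous ψ := by
  have : ψ = fun x => ψ 0 + ∫ t in (0 : ℝ)..x, ψd t := funext fun x => by
    rw [← h.2.2 0 x]; ring
  rw [this]
  exact continuous_const.add (intervalIntegral.continuous_primitive h.intervalIntegrable 0)

lemma integrable_normSq {f : ℝ → ℂ} (h : MemLp f 2 volume) :
    Integrable (fun x => Complex.normSq (f x)) volume := by
  refine (h.integrable_norm_pow (p := 2) two_ne_zero).congr (Eventually.of_forall fun x => ?_)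
  simp [Complex.normSq_eq_norm_sq]

lemma IsH1.integrable_mul {ψ ψd φ φd : ℝ → ℂ} (h : IsH1 ψ ψd) (k : IsH1 φ φd) :
    Integrable (fun x => ψ x * conj (φ x)) volume := by
  refine ((integrable_normSq h.1).add (integrable_normSq k.1)).mono'
    ((h.continuous.mul (Complex.continuous_conj.comp k.continuous)).aestronglyMeasurable)
    (Eventually.of_forall fun x => ?_)
  simp only [norm_mul, RCLike.norm_conj, Pi.add_apply, Complex.normSq_eq_norm_sq]
  nlinarith [two_mul_le_add_sq ‖ψ x‖ ‖φ x‖, norm_nonneg (ψ x), norm_nonneg (φ x)]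

/-- orthonormality as an identity for combinations -/
lemma integral_comb {ψ ψd : Fin N → ℝ → ℂ} (h : ∀ i, IsH1 (ψ i) (ψd i)) (ho : IsONFamily ψ)
    (v : Fin N → ℂ) :
    ∫ t, Complex.normSq (∑ i, conj (v i) * ψ i t) = ∑ i, Complex.normSq (v i) := by
  have e : ((∫ t, Complex.normSq (∑ i, conj (v i) * ψ i t) : ℝ) : ℂ) =
      ((∑ i, Complex.normSq (v i) : ℝ) : ℂ) := by
    rw [← integral_complex_ofReal]
    have e1 : (fun t => ((Complex.normSq (∑ i, conj (v i) * ψ i t) : ℝ) : ℂ)) =
        fun t => ∑ i, ∑ j, conj (v i) * v j * (ψ i t * conj (ψ j t)) := by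
      funext t
      simp only [← Complex.mul_conj, map_sum, map_mul, Complex.conj_conj, Finset.sum_mul_sum]
      exact Finset.sum_congr rfl fun i _ => Finset.sum_congr rfl fun j _ => by ring
    rw [e1, integral_finsetSum _ fun i _ => integrable_finsetSum _ fun j _ =>
      ((h i).integrable_mul (h j)).const_mul _, Complex.ofReal_sum]
    refine Finset.sum_congr rfl fun i _ => ?_
    rw [integral_finsetSum _ fun j _ => ((h i).integrable_mul (h j)).const_mul _]
    simp only [integral_const_mul, ho i, mul_ite, mul_one, mul_zero, Finset.sum_ite_eq,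
      Finset.mem_univ, ↓reduceIte]
    rw [Complex.normSq_eq_conj_mul_self]
  exact_mod_cast e

lemma normSq_add_le_weighted {c : ℝ} (hc : 0 < c) (x y : ℂ) :
    Complex.normSq (x + y) ≤ (1 + c) * Complex.normSq x + (1 + 1 / c) * Complex.normSq y := by
  simp only [Complex.normSq_apply, Complex.add_re, Complex.add_im]
  have key : ∀ r s : ℝ, (r + s) * (r + s) ≤ (1 + c) * (r * r) + (1 + 1 / c) * (s * s) := by
    intro r s
    have e : (1 + c) * (r * r) + (1 + 1 / c) * (s * s) - (r + s) * (r + s) = (c * r - s) ^ 2 / c := by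
      field_simp; ring
    have : 0 ≤ (c * r - s) ^ 2 / c := div_nonneg (sq_nonneg _) hc.le
    linarith
  have := key x.re y.re
  have := key x.im y.im
  nlinarith

lemma normSq_comb_le (v e : Fin N → ℂ) :
    Complex.normSq (∑ i, conj (v i) * e i) ≤
      (∑ i, Complex.normSq (v i)) * ∑ i, Complex.normSq (e i) := by
  have h1 : ‖∑ i, conj (v i) * e i‖ ≤ ∑ i, ‖v i‖ * ‖e i‖ :=
    (norm_sum_le _ _).trans (le_of_eq (Finset.sum_congr rfl fun i _ => by simp))
  calc Complex.normSq (∑ i, conj (v i) * e i) = ‖∑ i, conj (v i) * e i‖ ^ 2 :=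
        Complex.normSq_eq_norm_sq _
    _ ≤ (∑ i, ‖v i‖ * ‖e i‖) ^ 2 := by gcongr
    _ ≤ _ := by
      simp only [Complex.normSq_eq_norm_sq]
      exact Finset.sum_mul_sq_le_sq_mul_sq _ _ _

/-- Smooth approximation of an `L²` function, in the `L²` norm. -/
lemma exists_approx {f : ℝ → ℂ} (hf : MemLp f 2 volume) {δ : ℝ} (hδ : 0 < δ) :
    ∃ g : ℝ → ℂ, Continuous g ∧ MemLp g 2 volume ∧
      ∫ x, Complex.normSq (f x - g x) ≤ δ ^ 2 := by
  obtain ⟨g, _, hle, hgc, hgm⟩ := hf.exists_hasCompactSupport_eLpNorm_sub_le (by norm_num)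
    (ε := ENNReal.ofReal δ) (ENNReal.ofReal_pos.2 hδ).ne'
  refine ⟨g, hgc, hgm, ?_⟩
  have hm := hf.sub hgm
  rw [hm.eLpNorm_eq_integral_rpow_norm (by norm_num) (by norm_num),
    ENNReal.ofReal_le_ofReal_iff hδ.le] at hle
  have e : ∫ x, ‖(f - g) x‖ ^ (2 : ℝ≥0∞).toReal = ∫ x, Complex.normSq (f x - g x) := by
    refine integral_congr_ae (Eventually.of_forall fun x => ?_)
    simp [Complex.normSq_eq_norm_sq]
  rw [e, show ((2 : ℝ≥0∞).toReal)⁻¹ = (1 / 2 : ℝ) by norm_num, ← Real.sqrt_eq_rpow] at hle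
  exact (Real.sqrt_le_left hδ.le).1 hle

/-- The interval inequality for `H¹` orthonormal families. -/
lemma interval_ineq_H1 {ψ ψd : Fin N → ℝ → ℂ} (h : ∀ i, IsH1 (ψ i) (ψd i)) (ho : IsONFamily ψ)
    {a b ε : ℝ} (hab : a ≤ b) (hε : 0 < ε) (hε' : ε ≤ 1 / 6) {C : ℝ}
    (hC : ∀ x ∈ Icc (2 * ε) (2 - 2 * ε), |kc x| ≤ C) :
    Real.pi ^ 2 * (1 - 3 * ε) ^ 3 * ∫ x in a..b, dens ψ x ^ 3 ≤
      4 * (∫ x, dens ψd x) + C * (dens ψ a ^ 2 + dens ψ b ^ 2) * (1 - 3 * ε) ^ 2 := by
  classical
  set s : ℝ := Real.sqrt (1 - 3 * ε) with hs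
  have hs2 : s ^ 2 = 1 - 3 * ε := Real.sq_sqrt (by linarith)
  have hmul : ∀ z : ℂ, Complex.normSq ((s : ℂ) * z) = (1 - 3 * ε) * Complex.normSq z := fun z => by
    rw [Complex.normSq_mul, Complex.normSq_ofReal, ← hs2, pow_two]
  choose g hgc hgm hgd using fun (i : Fin N) (n : ℕ) =>
    exists_approx (h i).2.1 (δ := 1 / ((n : ℝ) + 1)) (by positivity)
  set r : ℕ → ℝ := fun n => (1 + (b - a)) / ((n : ℝ) + 1) with hr
  have hr0 : ∀ n, 0 ≤ r n := fun n => div_nonneg (by linarith) (by positivity)
  have hrlim : Tendsto r atTop (𝓝 0) :=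
    (tendsto_one_div_add_atTop_nhds_zero_nat.const_mul (1 + (b - a))).congr' (Eventually.of_forall
      fun n => by simp [hr, div_eq_mul_inv]) |>.trans (by simp)
  set φ : ℕ → Fin N → ℝ → ℂ := fun n i x => (s : ℂ) * (ψ i a + ∫ t in a..x, g i n t) with hφ
  have hd : ∀ n i x, HasDerivAt (φ n i) ((s : ℂ) * g i n x) x := fun n i x =>
    (((hgc i n).integral_hasStrictDerivAt a x).hasDerivAt.const_add _).const_mul _
  have happ : ∀ n i, ∀ x ∈ Icc a b, ‖φ n i x - (s : ℂ) * ψ i x‖ ≤ r n := by
    intro n i x hx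
    have e : φ n i x - (s : ℂ) * ψ i x = (s : ℂ) * ∫ t in a..x, (g i n t - ψd i t) := by
      rw [intervalIntegral.integral_sub ((hgc i n).intervalIntegrable a x)
        ((h i).intervalIntegrable a x), ← (h i).2.2 a x, hφ]
      ring
    rw [e, norm_mul, Complex.norm_real, Real.norm_of_nonneg (Real.sqrt_nonneg _)]
    have hs1 : s ≤ 1 := Real.sqrt_le_one.2 (by linarith)
    have hm := (h i).2.1.sub (hgm i n)
    have hI : Integrable (fun t => Complex.normSq (g i n t - ψd i t)) := by
      refine (integrable_normSq hm).congr (Eventually.of_forall fun t => ?_)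
      simp only [Pi.sub_apply]
      rw [← Complex.normSq_neg, neg_sub]
    have h1 : ‖∫ t in a..x, (g i n t - ψd i t)‖ ≤
        ∫ t in a..x, (((n : ℝ) + 1) / 2 * Complex.normSq (g i n t - ψd i t) + 1 / (2 * ((n : ℝ) + 1))) := by
      refine intervalIntegral.norm_integral_le_of_norm_le hx.1 (Eventually.of_forall fun t _ => ?_)
        ((hI.intervalIntegrable.const_mul _).add intervalIntegrable_const)
      rw [Complex.normSq_eq_norm_sq]
      set A := ‖g i n t - ψd i t‖
      have hn : (0 : ℝ) < n + 1 := by positivity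
      have : 0 ≤ (((n : ℝ) + 1) * A - 1) ^ 2 / (2 * (n + 1)) := by positivity
      have e : ((n : ℝ) + 1) / 2 * A ^ 2 + 1 / (2 * ((n : ℝ) + 1)) - A =
          (((n : ℝ) + 1) * A - 1) ^ 2 / (2 * (n + 1)) := by field_simp; ring
      linarith
    have h2 : (∫ t in a..x, Complex.normSq (g i n t - ψd i t)) ≤ (1 / ((n : ℝ) + 1)) ^ 2 := by
      rw [intervalIntegral.integral_of_le hx.1]
      refine (setIntegral_le_integral hI (Eventually.of_forall fun t => Complex.normSq_nonneg _)).trans ?_
      refine le_trans (le_of_eq (integral_congr_ae (Eventually.of_forall fun t => ?_))) (hgd i n)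
      simp only
      rw [← Complex.normSq_neg, neg_sub]
    rw [intervalIntegral.integral_add (hI.intervalIntegrable.const_mul _) intervalIntegrable_const,
      intervalIntegral.integral_const_mul, intervalIntegral.integral_const, smul_eq_mul] at h1
    have hn : (0 : ℝ) < n + 1 := by positivity
    calc s * ‖∫ t in a..x, (g i n t - ψd i t)‖ ≤ 1 * ‖∫ t in a..x, (g i n t - ψd i t)‖ :=
          mul_le_mul_of_nonneg_right hs1 (norm_nonneg _)
      _ ≤ ((n : ℝ) + 1) / 2 * (1 / ((n : ℝ) + 1)) ^ 2 + (x - a) * (1 / (2 * ((n : ℝ) + 1))) := by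
          rw [one_mul]
          refine h1.trans ?_
          gcongr
      _ ≤ ((n : ℝ) + 1) / 2 * (1 / ((n : ℝ) + 1)) ^ 2 + (b - a) * (1 / (2 * ((n : ℝ) + 1))) := by
          gcongr; exact hx.2
      _ ≤ r n := by
          have e : ((n : ℝ) + 1) / 2 * (1 / ((n : ℝ) + 1)) ^ 2 + (b - a) * (1 / (2 * ((n : ℝ) + 1))) =
              r n / 2 := by rw [hr]; field_simp
          rw [e]
          linarith [hr0 n]
  -- the Gram condition eventually holds
  have hgram : ∀ᶠ n in atTop, ∀ v : Fin N → ℂ,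
      (∫ t in a..b, Complex.normSq (∑ i, conj (v i) * φ n i t)) ≤
        (1 - 2 * ε) * ∑ i, Complex.normSq (v i) := by
    have hlim : Tendsto (fun n => (1 + 2 / ε) * ((b - a) * ((N : ℝ) * r n ^ 2))) atTop (𝓝 0) := by
      simpa using (((hrlim.pow 2).const_mul (N : ℝ)).const_mul (b - a)).const_mul (1 + 2 / ε)
    filter_upwards [hlim.eventually (ge_mem_nhds (show (0 : ℝ) < ε / 2 by positivity))] with n hn v
    set V := ∑ i, Complex.normSq (v i)
    have hV : 0 ≤ V := Finset.sum_nonneg fun i _ => Complex.normSq_nonneg _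
    have hcφ : ∀ i, Continuous (φ n i) := fun i =>
      continuous_iff_continuousAt.2 fun x => (hd n i x).continuousAt
    have hcψ : ∀ i, Continuous (ψ i) := fun i => (h i).continuous
    have hi1 : Continuous fun t => Complex.normSq (∑ i, conj (v i) * ψ i t) :=
      Complex.continuous_normSq.comp (by fun_prop)
    have hpt : ∀ t ∈ Icc a b, Complex.normSq (∑ i, conj (v i) * φ n i t) ≤
        (1 + ε / 2) * ((1 - 3 * ε) * Complex.normSq (∑ i, conj (v i) * ψ i t)) +
          (1 + 2 / ε) * (V * ((N : ℝ) * r n ^ 2)) := by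
      intro t ht
      have e : ∑ i, conj (v i) * φ n i t =
          (s : ℂ) * (∑ i, conj (v i) * ψ i t) + ∑ i, conj (v i) * (φ n i t - (s : ℂ) * ψ i t) := by
        rw [Finset.mul_sum, ← Finset.sum_add_distrib]
        exact Finset.sum_congr rfl fun i _ => by ring
      rw [e]
      refine (normSq_add_le_weighted (show 0 < ε / 2 by positivity) _ _).trans ?_
      rw [hmul, show (1 : ℝ) / (ε / 2) = 2 / ε by field_simp]
      gcongr
      refine (normSq_comb_le _ _).trans (mul_le_mul_of_nonneg_left ?_ hV)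
      calc ∑ i, Complex.normSq (φ n i t - (s : ℂ) * ψ i t) ≤ ∑ _i : Fin N, r n ^ 2 := by
            refine Finset.sum_le_sum fun i _ => ?_
            rw [Complex.normSq_eq_norm_sq]
            exact pow_le_pow_left₀ (norm_nonneg _) (happ n i t ht) 2
        _ = _ := by simp
    have h2 : (∫ t in a..b, Complex.normSq (∑ i, conj (v i) * ψ i t)) ≤ V := by
      rw [intervalIntegral.integral_of_le hab]
      refine (setIntegral_le_integral ?_ (Eventually.of_forall fun t => Complex.normSq_nonneg _)).trans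
        (le_of_eq (integral_comb h ho v))
      refine integrable_normSq ?_
      have : (fun t => ∑ i, conj (v i) * ψ i t) = ∑ i, (conj (v i) • ψ i) := by
        funext t; simp
      rw [this]
      exact memLp_finsetSum' _ fun i _ => (h i).1.const_smul _
    calc (∫ t in a..b, Complex.normSq (∑ i, conj (v i) * φ n i t))
        ≤ ∫ t in a..b, ((1 + ε / 2) * ((1 - 3 * ε) * Complex.normSq (∑ i, conj (v i) * ψ i t)) +
          (1 + 2 / ε) * (V * ((N : ℝ) * r n ^ 2))) :=
          intervalIntegral.integral_mono_on hab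
            ((Complex.continuous_normSq.comp (by fun_prop)).intervalIntegrable a b)
            (((continuous_const.mul (continuous_const.mul hi1)).add continuous_const).intervalIntegrable a b)
            hpt
      _ = (1 + ε / 2) * ((1 - 3 * ε) * ∫ t in a..b, Complex.normSq (∑ i, conj (v i) * ψ i t)) +
          V * ((1 + 2 / ε) * ((b - a) * ((N : ℝ) * r n ^ 2))) := by
          have hA : IntervalIntegrable (fun t => (1 + ε / 2) * ((1 - 3 * ε) *
              Complex.normSq (∑ i, conj (v i) * ψ i t))) volume a b :=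
            (continuous_const.mul (continuous_const.mul hi1)).intervalIntegrable a b
          rw [intervalIntegral.integral_add hA intervalIntegrable_const]
          simp only [intervalIntegral.integral_const_mul, intervalIntegral.integral_const, smul_eq_mul]
          ring
      _ ≤ (1 + ε / 2) * ((1 - 3 * ε) * V) + V * (ε / 2) := by
          gcongr
          linarith
      _ ≤ (1 - 2 * ε) * V := by nlinarith [mul_nonneg hV (sq_nonneg ε)]
  -- limits
  have hTi : Integrable (fun x => dens ψd x) := integrable_finsetSum _ fun i _ => integrable_normSq (h i).2.1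
  have hT : ∀ c : ℝ, 0 < c → ∀ n, ∫ x in a..b, dens (fun i x => (s : ℂ) * g i n x) x ≤
      (1 + c) * (∫ x, dens ψd x) + (1 + 1 / c) * ((N : ℝ) * (1 / ((n : ℝ) + 1)) ^ 2) := by
    intro c hc n
    have hI : ∀ i, Integrable (fun x => Complex.normSq (ψd i x - g i n x)) := fun i =>
      integrable_normSq ((h i).2.1.sub (hgm i n))
    rw [intervalIntegral.integral_of_le hab]
    have hS : Integrable (fun x => (1 + c) * dens ψd x +
        (1 + 1 / c) * ∑ i, Complex.normSq (ψd i x - g i n x)) :=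
      (hTi.const_mul _).add ((integrable_finsetSum _ fun i _ => hI i).const_mul _)
    have hcg : Continuous (fun x => dens (fun i x => (s : ℂ) * g i n x) x) :=
      continuous_finsetSum _ fun i _ => Complex.continuous_normSq.comp (continuous_const.mul (hgc i n))
    refine (setIntegral_mono_on hcg.integrableOn_Ioc
      hS.integrableOn measurableSet_Ioc fun x _ => ?_).trans ?_
    · simp only [dens, Finset.mul_sum, ← Finset.sum_add_distrib]
      refine Finset.sum_le_sum fun i _ => ?_
      rw [hmul]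
      have h1 : g i n x = ψd i x + -(ψd i x - g i n x) := by ring
      have h2 := normSq_add_le_weighted hc (ψd i x) (-(ψd i x - g i n x))
      rw [← h1, Complex.normSq_neg] at h2
      nlinarith [Complex.normSq_nonneg (g i n x)]
    · refine (setIntegral_le_integral hS (Eventually.of_forall fun x => ?_)).trans ?_
      · exact add_nonneg (mul_nonneg (by linarith) (dens_nonneg _ _))
          (mul_nonneg (by positivity) (Finset.sum_nonneg fun i _ => Complex.normSq_nonneg _))
      rw [integral_add (hTi.const_mul _) ((integrable_finsetSum _ fun i _ => hI i).const_mul _),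
        integral_const_mul, integral_const_mul, integral_finsetSum _ fun i _ => hI i]
      gcongr
      calc ∑ i, ∫ x, Complex.normSq (ψd i x - g i n x) ≤ ∑ _i : Fin N, (1 / ((n : ℝ) + 1)) ^ 2 :=
            Finset.sum_le_sum fun i _ => hgd i n
        _ = _ := by simp
  have hptlim : ∀ i, ∀ x ∈ Icc a b, Tendsto (fun n => φ n i x) atTop (𝓝 ((s : ℂ) * ψ i x)) :=
    fun i x hx => tendsto_iff_norm_sub_tendsto_zero.2
      (squeeze_zero (fun n => norm_nonneg _) (fun n => happ n i x hx) hrlim)
  have hdlim : ∀ x ∈ Icc a b, Tendsto (fun n => dens (φ n) x) atTop (𝓝 ((1 - 3 * ε) * dens ψ x)) := by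
    intro x hx
    simp only [dens, Finset.mul_sum, ← hmul]
    exact tendsto_finsetSum _ fun i _ => (Complex.continuous_normSq.tendsto _).comp (hptlim i x hx)
  have hIlim : Tendsto (fun n => ∫ x in a..b, dens (φ n) x ^ 3) atTop
      (𝓝 (∫ x in a..b, ((1 - 3 * ε) * dens ψ x) ^ 3)) := by
    obtain ⟨Mb, hMb⟩ := isCompact_Icc.exists_bound_of_continuousOn (s := Icc a b)
      (continuous_finsetSum (Finset.univ : Finset (Fin N))
        fun i _ => ((h i).continuous.norm)).continuousOn
    refine intervalIntegral.tendsto_integral_filter_of_dominated_convergence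
      (fun _ => ((N : ℝ) * (Mb + (1 + (b - a))) ^ 2) ^ 3) ?_ ?_ intervalIntegrable_const ?_
    · exact Eventually.of_forall fun n => ((continuous_finsetSum _ fun i _ =>
        Complex.continuous_normSq.comp
          (continuous_iff_continuousAt.2 fun x => (hd n i x).continuousAt)).pow 3).aestronglyMeasurable
    · refine Eventually.of_forall fun n => Eventually.of_forall fun x hx => ?_
      rw [uIoc_of_le hab] at hx
      have hx' : x ∈ Icc a b := Ioc_subset_Icc_self hx
      rw [Real.norm_of_nonneg (pow_nonneg (dens_nonneg _ _) 3)]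
      gcongr
      · exact dens_nonneg _ _
      calc dens (φ n) x ≤ ∑ _i : Fin N, (Mb + (1 + (b - a))) ^ 2 := by
            refine Finset.sum_le_sum fun i _ => ?_
            rw [Complex.normSq_eq_norm_sq]
            refine pow_le_pow_left₀ (norm_nonneg _) ?_ 2
            have h1 := happ n i x hx'
            have h2 : r n ≤ 1 + (b - a) := div_le_self (by linarith) (by
              linarith [(Nat.cast_nonneg n : (0 : ℝ) ≤ n)])
            have h3 : ‖ψ i x‖ ≤ Mb := (Finset.single_le_sum (fun j _ => norm_nonneg (ψ j x))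
              (Finset.mem_univ i)).trans ((le_abs_self _).trans (hMb x hx'))
            have h4 : ‖(s : ℂ) * ψ i x‖ ≤ ‖ψ i x‖ := by
              rw [norm_mul, Complex.norm_real, Real.norm_of_nonneg (Real.sqrt_nonneg _)]
              exact mul_le_of_le_one_left (norm_nonneg _) (Real.sqrt_le_one.2 (by linarith))
            linarith [norm_le_norm_add_norm_sub' (φ n i x) ((s : ℂ) * ψ i x)]
        _ = _ := by simp
    · refine Eventually.of_forall fun x hx => ?_
      rw [uIoc_of_le hab] at hx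
      exact (hdlim x (Ioc_subset_Icc_self hx)).pow 3
  have e3 : ∫ x in a..b, ((1 - 3 * ε) * dens ψ x) ^ 3 =
      (1 - 3 * ε) ^ 3 * ∫ x in a..b, dens ψ x ^ 3 := by
    simp only [mul_pow, intervalIntegral.integral_const_mul]
  rw [e3] at hIlim
  refine le_of_forall_pos_le_add fun δ hδ => ?_
  set T := ∫ x, dens ψd x
  have hT0 : 0 ≤ T := integral_nonneg fun x => dens_nonneg _ _
  set c := δ / (4 * T + 1) with hcdef
  have hc : 0 < c := div_pos hδ (by linarith)
  have hR : Tendsto (fun n : ℕ => 4 * ((1 + c) * T + (1 + 1 / c) * ((N : ℝ) * (1 / ((n : ℝ) + 1)) ^ 2)) +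
      C * (dens (φ n) a ^ 2 + dens (φ n) b ^ 2)) atTop
      (𝓝 (4 * ((1 + c) * T) + C * (((1 - 3 * ε) * dens ψ a) ^ 2 + ((1 - 3 * ε) * dens ψ b) ^ 2))) := by
    have h1 : Tendsto (fun n : ℕ => (1 + 1 / c) * ((N : ℝ) * (1 / ((n : ℝ) + 1)) ^ 2)) atTop (𝓝 0) := by
      simpa using ((tendsto_one_div_add_atTop_nhds_zero_nat.pow 2).const_mul (N : ℝ)).const_mul (1 + 1 / c)
    have h2 := ((tendsto_const_nhds (x := (1 + c) * T)).add h1).const_mul 4
    rw [add_zero] at h2
    exact h2.add ((((hdlim a (left_mem_Icc.2 hab)).pow 2).add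
      ((hdlim b (right_mem_Icc.2 hab)).pow 2)).const_mul C)
  have hle : Real.pi ^ 2 * ((1 - 3 * ε) ^ 3 * ∫ x in a..b, dens ψ x ^ 3) ≤
      4 * ((1 + c) * T) + C * (((1 - 3 * ε) * dens ψ a) ^ 2 + ((1 - 3 * ε) * dens ψ b) ^ 2) := by
    refine le_of_tendsto_of_tendsto (hIlim.const_mul _) hR ?_
    filter_upwards [hgram] with n hn
    refine (interval_ineq (fun i => continuous_const.mul (hgc i n)) (hd n) hab hε (by linarith) hC hn).trans ?_
    gcongr
    exact hT c hc n
  have h4 : 4 * (c * T) ≤ δ := by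
    rw [hcdef, div_mul_eq_mul_div, ← mul_div_assoc, div_le_iff₀ (by linarith)]
    nlinarith
  nlinarith

lemma exists_small_dens {f : ℝ → ℝ} (hf : Integrable f) {δ : ℝ} (hδ : 0 < δ) (R : ℝ) :
    (∃ x, x ≤ R ∧ f x < δ) ∧ ∃ x, R ≤ x ∧ f x < δ := by
  have hfin := hf.measure_ge_lt_top hδ
  constructor
  · by_contra hh
    push Not at hh
    have := lt_of_le_of_lt (measure_mono (μ := volume) (show Iic R ⊆ {x | δ ≤ f x} from hh)) hfin
    simp at this
  · by_contra hh
    push Not at hh
    have := lt_of_le_of_lt (measure_mono (μ := volume) (show Ici R ⊆ {x | δ ≤ f x} from hh)) hfin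
    simp at this

/-- The sharp kinetic inequality. -/
theorem kinetic {ψ ψd : Fin N → ℝ → ℂ} (h : ∀ i, IsH1 (ψ i) (ψd i)) (ho : IsONFamily ψ) :
    Integrable (fun x => dens ψ x ^ 3) ∧
      Real.pi ^ 2 * ∫ x, dens ψ x ^ 3 ≤ 4 * ∫ x, dens ψd x := by
  set T := ∫ x, dens ψd x
  have hcont : Continuous (dens ψ) := continuous_finsetSum _ fun i _ =>
    Complex.continuous_normSq.comp (h i).continuous
  have hρ : Integrable (dens ψ) := integrable_finsetSum _ fun i _ => integrable_normSq (h i).1
  have key : ∀ R : ℝ, 0 ≤ R → Real.pi ^ 2 * ∫ x in (-R)..R, dens ψ x ^ 3 ≤ 4 * T := by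
    intro R hR
    set I := ∫ x in (-R)..R, dens ψ x ^ 3
    have hI : 0 ≤ I := intervalIntegral.integral_nonneg (by linarith) fun x _ =>
      pow_nonneg (dens_nonneg _ _) 3
    have hε : ∀ ε : ℝ, 0 < ε → ε ≤ 1 / 6 → Real.pi ^ 2 * (1 - 3 * ε) ^ 3 * I ≤ 4 * T := by
      intro ε hε hε'
      obtain ⟨C, hC0, hC⟩ := exists_kc_bound hε
      refine le_of_forall_pos_le_add fun δ hδ => ?_
      set η := min 1 (δ / (2 * C + 1)) with hη
      have hη0 : 0 < η := lt_min one_pos (by positivity)
      obtain ⟨a, ha, ha'⟩ := (exists_small_dens hρ hη0 (-R)).1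
      obtain ⟨b, hb, hb'⟩ := (exists_small_dens hρ hη0 R).2
      have h1 := interval_ineq_H1 h ho (show a ≤ b by linarith) hε hε' hC
      have h2 : I ≤ ∫ x in a..b, dens ψ x ^ 3 :=
        intervalIntegral.integral_mono_interval ha (by linarith) hb
          (Eventually.of_forall fun x => pow_nonneg (dens_nonneg _ _) 3)
          ((hcont.pow 3).intervalIntegrable a b)
      have h3 : Real.pi ^ 2 * (1 - 3 * ε) ^ 3 * I ≤
          Real.pi ^ 2 * (1 - 3 * ε) ^ 3 * ∫ x in a..b, dens ψ x ^ 3 :=
        mul_le_mul_of_nonneg_left h2 (mul_nonneg (sq_nonneg _) (pow_nonneg (by linarith) 3))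
      have h4 : C * (dens ψ a ^ 2 + dens ψ b ^ 2) * (1 - 3 * ε) ^ 2 ≤ δ := by
        have hsq : ∀ x, dens ψ x < η → dens ψ x ^ 2 ≤ η := fun x hx =>
          calc dens ψ x ^ 2 ≤ η ^ 2 := pow_le_pow_left₀ (dens_nonneg _ _) hx.le 2
            _ ≤ η := by nlinarith [min_le_left (1 : ℝ) (δ / (2 * C + 1))]
        have h5 : (1 - 3 * ε) ^ 2 ≤ 1 := pow_le_one₀ (by linarith) (by linarith)
        calc C * (dens ψ a ^ 2 + dens ψ b ^ 2) * (1 - 3 * ε) ^ 2
            ≤ C * (η + η) * 1 := by gcongr <;> [exact hsq a ha'; exact hsq b hb']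
          _ ≤ (2 * C + 1) * (δ / (2 * C + 1)) := by
            have := min_le_right (1 : ℝ) (δ / (2 * C + 1))
            rw [hη]
            nlinarith
          _ = δ := by field_simp
      linarith
    have hlim : Tendsto (fun ε : ℝ => Real.pi ^ 2 * (1 - 3 * ε) ^ 3 * I) (𝓝[>] 0) (𝓝 (Real.pi ^ 2 * I)) := by
      have : Continuous fun ε : ℝ => Real.pi ^ 2 * (1 - 3 * ε) ^ 3 * I := by fun_prop
      simpa using (this.tendsto 0).mono_left nhdsWithin_le_nhds
    refine le_of_tendsto hlim ?_
    filter_upwards [Ioo_mem_nhdsGT (show (0 : ℝ) < 1 / 6 by norm_num)] with ε hε' using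
      hε ε hε'.1 hε'.2.le
  have hint : Integrable (fun x => dens ψ x ^ 3) := by
    refine integrable_of_intervalIntegral_norm_bounded (4 * T / Real.pi ^ 2)
      (a := fun n : ℕ => -(n : ℝ)) (b := fun n : ℕ => (n : ℝ))
      (fun n => (hcont.pow 3).integrableOn_Ioc)
      (tendsto_neg_atTop_atBot.comp tendsto_natCast_atTop_atTop) tendsto_natCast_atTop_atTop
      (Eventually.of_forall fun n => ?_)
    rw [le_div_iff₀ (by positivity), mul_comm]
    refine le_trans (le_of_eq ?_) (key n (Nat.cast_nonneg n))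
    congr 1
    exact intervalIntegral.integral_congr fun x _ =>
      Real.norm_of_nonneg (pow_nonneg (dens_nonneg _ _) 3)
  refine ⟨hint, ?_⟩
  refine le_of_tendsto (((intervalIntegral_tendsto_integral hint
    (tendsto_neg_atTop_atBot.comp tendsto_natCast_atTop_atTop) tendsto_natCast_atTop_atTop)).const_mul _)
    (Eventually.of_forall fun n : ℕ => key n (Nat.cast_nonneg n))

/-- The sharp Lieb-Thirring inequality at `γ = 1`. -/
theorem lieb_thirring {ψ ψd : Fin N → ℝ → ℂ} {W : ℝ → ℝ} (hW : IsPotential W)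
    (h : ∀ i, IsH1 (ψ i) (ψd i)) (ho : IsONFamily ψ) :
    (∑ i, ((∫ x, W x * Complex.normSq (ψ i x)) - ∫ x, Complex.normSq (ψd i x))) ≤
      4 / (3 * Real.sqrt 3 * Real.pi) * ∫ x, W x ^ (3 / 2 : ℝ) := by
  obtain ⟨hWm, hW0, hWi⟩ := hW
  obtain ⟨hint, hkin⟩ := kinetic h ho
  set L := 4 / (3 * Real.sqrt 3 * Real.pi) with hL
  have hcont : Continuous (dens ψ) := continuous_finsetSum _ fun i _ =>
    Complex.continuous_normSq.comp (h i).continuous
  have hyoung : ∀ x, W x * dens ψ x ≤ Real.pi ^ 2 / 4 * dens ψ x ^ 3 + L * W x ^ (3 / 2 : ℝ) := by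
    intro x
    set ρ := dens ψ x
    have hρ : 0 ≤ ρ := dens_nonneg _ _
    set k := Real.sqrt 3 * Real.pi / 2 with hk
    have hk0 : 0 < k := by positivity
    set y := Real.sqrt (W x) / k with hy
    have hy0 : 0 ≤ y := div_nonneg (Real.sqrt_nonneg _) hk0.le
    have hsq : Real.sqrt (W x) = k * y := by rw [hy]; field_simp
    have e1 : W x = k ^ 2 * y ^ 2 := by rw [← mul_pow, ← hsq, Real.sq_sqrt (hW0 x)]
    have e2 : W x ^ (3 / 2 : ℝ) = k ^ 3 * y ^ 3 := by
      rw [← mul_pow, ← hsq, Real.sqrt_eq_rpow, ← Real.rpow_natCast, ← Real.rpow_mul (hW0 x)]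
      norm_num
    have h3 : Real.sqrt 3 ^ 2 = 3 := Real.sq_sqrt (by norm_num)
    have e3 : L * k ^ 3 = Real.pi ^ 2 / 2 := by
      rw [hL, hk]
      field_simp
      linear_combination 4 * h3
    have e4 : k ^ 2 = 3 * Real.pi ^ 2 / 4 := by
      rw [hk]; field_simp; linear_combination 4 * h3
    rw [e2, ← mul_assoc, e3, e1, e4]
    nlinarith [mul_nonneg (mul_nonneg (sq_nonneg Real.pi) (sq_nonneg (y - ρ))) (add_nonneg (add_nonneg hy0 hy0) hρ)]
  have hRi : Integrable (fun x => Real.pi ^ 2 / 4 * dens ψ x ^ 3 + L * W x ^ (3 / 2 : ℝ)) :=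
    (hint.const_mul _).add (hWi.const_mul L)
  have hWρ : Integrable (fun x => W x * dens ψ x) := by
    refine hRi.mono' (hWm.mul hcont.measurable).aestronglyMeasurable (Eventually.of_forall fun x => ?_)
    rw [Real.norm_of_nonneg (mul_nonneg (hW0 x) (dens_nonneg _ _))]
    exact hyoung x
  have hWψ : ∀ i, Integrable (fun x => W x * Complex.normSq (ψ i x)) := fun i => by
    refine hWρ.mono' (hWm.mul (Complex.continuous_normSq.comp (h i).continuous).measurable).aestronglyMeasurable
      (Eventually.of_forall fun x => ?_)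
    rw [Real.norm_of_nonneg (mul_nonneg (hW0 x) (Complex.normSq_nonneg _))]
    exact mul_le_mul_of_nonneg_left (Finset.single_le_sum (fun j _ => Complex.normSq_nonneg (ψ j x))
      (Finset.mem_univ i)) (hW0 x)
  have e5 : ∑ i, (∫ x, W x * Complex.normSq (ψ i x)) = ∫ x, W x * dens ψ x := by
    rw [← integral_finsetSum _ fun i _ => hWψ i]
    simp only [dens, Finset.mul_sum]
  have e6 : ∑ i, (∫ x, Complex.normSq (ψd i x)) = ∫ x, dens ψd x := by
    rw [← integral_finsetSum _ fun i _ => integrable_normSq (h i).2.1]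
    rfl
  rw [Finset.sum_sub_distrib, e5, e6]
  have h7 := integral_mono hWρ hRi hyoung
  rw [integral_add (hint.const_mul _) (hWi.const_mul L), integral_const_mul, integral_const_mul] at h7
  linarith

end Vale.Agent.P371
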