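import Mathlib
import Vale.Agent.P371.Defs

/-!
The one-bound-state optimiser `W = (3/4) sech² x` attains the ratio `4/(3√3π)`.
-/

open Filter Topology MeasureTheory
open scoped ComplexConjugate

namespace Vale.Agent.P371

lemma inv_cosh_le (x : ℝ) : 1 / Real.cosh x ≤ 2 * (1 + x ^ 2)⁻¹ := by
  have h : 1 + x ^ 2 / 2 ≤ Real.cosh x := by
    have h1 : Real.cosh x = 1 + 2 * Real.sinh (x / 2) ^ 2 := by
      have := Real.cosh_two_mul (x / 2)
      rw [mul_div_cancel₀ x two_ne_zero, Real.cosh_sq] at this
      linarith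
    have h2 : |x / 2| ≤ |Real.sinh (x / 2)| := by
      rw [Real.abs_sinh]; exact Real.self_le_sinh_iff.2 (abs_nonneg _)
    have h3 := sq_le_sq.2 h2
    nlinarith
  rw [← div_eq_mul_inv, div_le_div_iff₀ (Real.cosh_pos x) (by positivity)]
  nlinarith

lemma integrable_inv_cosh : Integrable (fun x => 1 / Real.cosh x) volume := by
  refine (integrable_inv_one_add_sq.const_mul 2).mono'
    (Continuous.aestronglyMeasurable (continuous_const.div Real.continuous_cosh fun x => (Real.cosh_pos x).ne'))
    (Eventually.of_forall fun x => ?_)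
  rw [Real.norm_of_nonneg (div_nonneg zero_le_one (Real.cosh_pos x).le)]
  exact inv_cosh_le x

lemma inv_cosh_cube_le (x : ℝ) : 1 / Real.cosh x ^ 3 ≤ 1 / Real.cosh x :=
  div_le_div_of_nonneg_left zero_le_one (Real.cosh_pos x) (le_self_pow₀ (Real.one_le_cosh x) (by norm_num))

lemma integrable_inv_cosh_cube : Integrable (fun x => 1 / Real.cosh x ^ 3) volume := by
  refine integrable_inv_cosh.mono' (Continuous.aestronglyMeasurable
    (continuous_const.div (Real.continuous_cosh.pow 3) fun x => (pow_pos (Real.cosh_pos x) 3).ne'))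
    (Eventually.of_forall fun x => ?_)
  rw [Real.norm_of_nonneg (div_nonneg zero_le_one (pow_nonneg (Real.cosh_pos x).le 3))]
  exact inv_cosh_cube_le x

lemma tendsto_sinh_atTop : Tendsto Real.sinh atTop atTop :=
  tendsto_atTop_mono' atTop ((eventually_ge_atTop (0 : ℝ)).mono fun _ hx =>
    Real.self_le_sinh_iff.2 hx) tendsto_id

lemma tendsto_arctan_sinh :
    Tendsto (fun x => Real.arctan (Real.sinh x)) atTop (𝓝 (Real.pi / 2)) :=
  (tendsto_nhds_of_tendsto_nhdsWithin Real.tendsto_arctan_atTop).comp tendsto_sinh_atTop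

lemma tendsto_sinh_div : Tendsto (fun x => Real.sinh x / Real.cosh x ^ 2) atTop (𝓝 0) := by
  have h0 : Tendsto (fun x : ℝ => 2 * (1 + x ^ 2)⁻¹) atTop (𝓝 0) := by
    simpa using ((tendsto_atTop_add_const_left atTop (1 : ℝ)
      (tendsto_pow_atTop two_ne_zero)).inv_tendsto_atTop).const_mul (2 : ℝ)
  refine squeeze_zero_norm (fun x => le_trans ?_ (inv_cosh_le x)) h0
  rw [Real.norm_eq_abs, abs_div, abs_of_pos (pow_pos (Real.cosh_pos x) 2)]
  have h1 : |Real.sinh x| ≤ Real.cosh x := abs_le_of_sq_le_sq (by rw [Real.cosh_sq]; linarith)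
    (Real.cosh_pos x).le
  calc |Real.sinh x| / Real.cosh x ^ 2 ≤ Real.cosh x / Real.cosh x ^ 2 := by gcongr
    _ = 1 / Real.cosh x := by field_simp

lemma integral_inv_cosh : ∫ x, 1 / Real.cosh x = Real.pi := by
  have hd : ∀ x, HasDerivAt (fun x => Real.arctan (Real.sinh x)) (1 / Real.cosh x) x := fun x => by
    refine (Real.hasDerivAt_sinh x).arctan.congr_deriv ?_
    have := Real.cosh_pos x
    rw [add_comm, ← Real.cosh_sq]; field_simp
  have hb : Tendsto (fun x => Real.arctan (Real.sinh x)) atBot (𝓝 (-(Real.pi / 2))) := by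
    simpa [Function.comp_def] using (tendsto_arctan_sinh.comp tendsto_neg_atBot_atTop).neg
  rw [integral_of_hasDerivAt_of_tendsto hd integrable_inv_cosh hb tendsto_arctan_sinh]
  ring

lemma integral_inv_cosh_cube : ∫ x, 1 / Real.cosh x ^ 3 = Real.pi / 2 := by
  let F := fun x => (Real.sinh x / Real.cosh x ^ 2 + Real.arctan (Real.sinh x)) / 2
  have hd : ∀ x, HasDerivAt F (1 / Real.cosh x ^ 3) x := fun x => by
    have := Real.cosh_pos x
    refine ((((Real.hasDerivAt_sinh x).div ((Real.hasDerivAt_cosh x).pow 2)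
      (pow_pos this 2).ne').add (Real.hasDerivAt_sinh x).arctan).div_const 2).congr_deriv ?_
    have h2 := Real.cosh_sq x
    have h3 : 1 + Real.sinh x ^ 2 = Real.cosh x ^ 2 := by linarith
    rw [h3]
    simp only [Pi.pow_apply, Nat.cast_ofNat, Nat.add_one_sub_one, pow_one]
    field_simp
    linear_combination 2 * h2
  have ht : Tendsto F atTop (𝓝 (Real.pi / 4)) := by
    have := (tendsto_sinh_div.add tendsto_arctan_sinh).div_const 2
    rwa [zero_add, show Real.pi / 2 / 2 = Real.pi / 4 by ring] at this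
  have hb : Tendsto F atBot (𝓝 (-(Real.pi / 4))) := by
    refine ((ht.comp tendsto_neg_atBot_atTop).neg).congr fun x => ?_
    simp only [Function.comp_apply, F, Real.sinh_neg, Real.cosh_neg, Real.arctan_neg]
    ring
  rw [integral_of_hasDerivAt_of_tendsto hd integrable_inv_cosh_cube hb ht]
  ring

/-- The real profile `(π cosh x)^(-1/2)`. -/
noncomputable def profile (x : ℝ) : ℝ := Real.exp (-(Real.log (Real.cosh x)) / 2) / Real.sqrt Real.pi

/-- Its derivative. -/
noncomputable def profileD (x : ℝ) : ℝ := -(Real.sinh x / Real.cosh x) / 2 * profile x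

lemma profile_sq (x : ℝ) : profile x ^ 2 = 1 / Real.cosh x / Real.pi := by
  rw [profile, div_pow, ← Real.exp_nat_mul, Real.sq_sqrt Real.pi_pos.le,
    show ((2 : ℕ) : ℝ) * (-(Real.log (Real.cosh x)) / 2) = -Real.log (Real.cosh x) by push_cast; ring,
    Real.exp_neg, Real.exp_log (Real.cosh_pos x), one_div]

lemma profileD_sq (x : ℝ) :
    profileD x ^ 2 = 1 / (4 * Real.pi) * (1 / Real.cosh x - 1 / Real.cosh x ^ 3) := by
  rw [profileD, mul_pow, profile_sq]
  have := Real.cosh_pos x
  field_simp
  linear_combination -4 * Real.cosh_sq x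

lemma profile_hasDerivAt (x : ℝ) : HasDerivAt profile (profileD x) x := by
  refine ((((Real.hasDerivAt_cosh x).log (Real.cosh_pos x).ne').neg.div_const 2).exp.div_const
    (Real.sqrt Real.pi)).congr_deriv ?_
  rw [profileD, profile]; simp only [Pi.neg_apply]; ring

lemma continuous_profile : Continuous profile :=
  continuous_iff_continuousAt.2 fun x => (profile_hasDerivAt x).continuousAt

lemma continuous_profileD : Continuous profileD :=
  ((Real.continuous_sinh.div Real.continuous_cosh fun x => (Real.cosh_pos x).ne').neg.div_const 2).mul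
    continuous_profile

lemma profile_isH1 : IsH1 (fun x => (profile x : ℂ)) (fun x => (profileD x : ℂ)) := by
  refine ⟨(memLp_two_iff_integrable_sq_norm
      (Complex.continuous_ofReal.comp continuous_profile).aestronglyMeasurable).2 ?_,
    (memLp_two_iff_integrable_sq_norm
      (Complex.continuous_ofReal.comp continuous_profileD).aestronglyMeasurable).2 ?_, fun a b => ?_⟩
  · simp only [Function.comp_apply, Complex.norm_real, Real.norm_eq_abs, sq_abs, profile_sq]
    exact integrable_inv_cosh.div_const _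
  · simp only [Function.comp_apply, Complex.norm_real, Real.norm_eq_abs, sq_abs, profileD_sq]
    exact (integrable_inv_cosh.sub integrable_inv_cosh_cube).const_mul _
  · exact (intervalIntegral.integral_eq_sub_of_hasDerivAt
      (fun x _ => (profile_hasDerivAt x).ofReal_comp)
      ((Complex.continuous_ofReal.comp continuous_profileD).intervalIntegrable a b)).symm

lemma ratio_attained : (4 / (3 * Real.sqrt 3 * Real.pi)) ∈ LTRatios := by
  have hWp : ∀ x, ((3 / 4 : ℝ) / Real.cosh x ^ 2) ^ (3 / 2 : ℝ) =
      3 * Real.sqrt 3 / 8 * (1 / Real.cosh x ^ 3) := fun x => by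
    have hc := Real.cosh_pos x
    have h3 : Real.sqrt 3 ^ 2 = 3 := Real.sq_sqrt (by norm_num)
    have e : (3 / 4 : ℝ) / Real.cosh x ^ 2 = (Real.sqrt 3 / 2 / Real.cosh x) ^ ((2 : ℕ) : ℝ) := by
      rw [Real.rpow_natCast]; field_simp; linear_combination -4 * h3
    rw [e, ← Real.rpow_mul (by positivity), show ((2 : ℕ) : ℝ) * (3 / 2) = ((3 : ℕ) : ℝ) by norm_num,
      Real.rpow_natCast]
    field_simp
    linear_combination 8 * h3
  have hint : ∫ x, ((3 / 4 : ℝ) / Real.cosh x ^ 2) ^ (3 / 2 : ℝ) =
      3 * Real.sqrt 3 * Real.pi / 16 := by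
    simp only [hWp]
    rw [integral_const_mul, integral_inv_cosh_cube]; ring
  refine ⟨1, fun _ x => (profile x : ℂ), fun _ x => (profileD x : ℂ),
    fun x => (3 / 4) / Real.cosh x ^ 2, ⟨by fun_prop, fun x => by positivity, ?_⟩, ?_,
    fun _ => profile_isH1, fun i j => ?_, ?_⟩
  · simp only [hWp]; exact integrable_inv_cosh_cube.const_mul _
  · rw [hint]; positivity
  · rw [if_pos (Subsingleton.elim i j)]
    have e : (fun x => (profile x : ℂ) * conj (profile x : ℂ)) =
        fun x => ((1 / Real.cosh x / Real.pi : ℝ) : ℂ) := by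
      funext x; rw [Complex.conj_ofReal, ← Complex.ofReal_mul, ← pow_two, profile_sq]
    simp only [e]
    rw [integral_complex_ofReal, integral_div, integral_inv_cosh, div_self Real.pi_ne_zero]
    simp
  · simp only [Fin.sum_univ_one, Complex.normSq_ofReal, ← pow_two, profile_sq, profileD_sq]
    have e : (fun x => (3 / 4 : ℝ) / Real.cosh x ^ 2 * (1 / Real.cosh x / Real.pi)) =
        fun x => 3 / (4 * Real.pi) * (1 / Real.cosh x ^ 3) := by
      funext x; have := Real.cosh_pos x; field_simp
    rw [e, hint, integral_const_mul, integral_const_mul,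
      integral_sub integrable_inv_cosh integrable_inv_cosh_cube,
      integral_inv_cosh, integral_inv_cosh_cube]
    field_simp
    ring

end Vale.Agent.P371
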